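import Vale.Agent.P284.H500.Iit.FinK
import Mathlib.Analysis.Complex.Liouville

/-!
# P284 (helper500), uniformisation, part 4: the deck transformations are affine in the coordinates `F`,
with finite linear parts; an invariant positive definite Hermitian matrix
-/

open scoped Manifold ContDiff Topology ComplexConjugate ComplexOrder
open Filter Set Metric Matrix

noncomputable section

namespace Vale.Agent.P284.H500.Iit

open Vale.Agent.P272.K Vale.Agent.P284.H894.G Vale.Agent.P284.H894.W Vale.Agent.P284.H494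
  Vale.Agent.P284.H10 Vale.Agent.P284.H224 Vale.Agent.P284.H213.Grp

section
variable {n : ℕ} {X : Type} [TopologicalSpace X] [ChartedSpace (Cm n) X]
  [IsManifold 𝓘(ℂ, Cm n) ω X] {E : Type} [TopologicalSpace E] {p : E → X} {Γ : Type} [Group Γ]
  [MulAction Γ E] {w : Chart n X → Cm n → Matrix (Fin n) (Fin n) ℂ} {q : ℕ} {F : E → Cm q}
  {c : Γ → Cm q} {B : ℝ}

/-- the deck transformations are holomorphic in the coordinates `F` -/
theorem psi_diff (hp : IsGalois Γ p) (hB : HolB p w F B) (hF : IsHomeomorph F)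
    (hreg : ∀ y, Reg (n := n) p F y) (γ : Γ) :
    Differentiable ℂ (fun z => F (γ • (hF.homeomorph F).symm z)) := by
  intro z
  set y := (hF.homeomorph F).symm z with hy
  have hFs : ∀ t, F ((hF.homeomorph F).symm t) = t := fun t => (hF.homeomorph F).apply_symm_apply t
  have hFy : F y = z := hFs z
  have he : At (chartAt (Cm n) (p y)) (p y) := ⟨chart_mem_atlas _ _, mem_chart_source _ _⟩
  set e := chartAt (Cm n) (p y) with he0
  obtain ⟨ε, u, hε, hyε, hu, huy, hsec⟩ := exists_sec hp.cov hB (hreg y) he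
  have hpγ : ∀ y' : E, p (γ • y') = p y' := fun y' => ((hp.orb y' (γ • y')).2 ⟨γ, rfl⟩).symm
  obtain ⟨f, hf1, hf2, -⟩ := hB (γ • y) e (by rw [hpγ]; exact he)
  rw [hpγ] at hf2
  have h1 : Tendsto (fun y' : E => γ • y') (𝓝 y) (𝓝 (γ • y)) := (hp.cont γ).tendsto y
  have h2 : ∀ᶠ y' in 𝓝 y, F (γ • y') = f (e (p y')) := by
    filter_upwards [h1.eventually hf1] with y' hy'
    rw [hy', hpγ]
  have h3 : Tendsto (hF.homeomorph F).symm (𝓝 z) (𝓝 y) := (hF.homeomorph F).symm.continuous.tendsto z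
  rw [hFy] at hu huy hsec
  have h4 : (fun t => F (γ • (hF.homeomorph F).symm t)) =ᶠ[𝓝 z] fun t => f (u t) := by
    filter_upwards [h3.eventually h2, hsec] with t h5 h6
    rw [h5]
    have h7 : (hF.homeomorph F).symm t = ε.symm (u t) := by
      apply hF.injective
      rw [hFs, h6.2]
    rw [h7, ← hε.eq _ (ε.map_target h6.1), ε.right_inv h6.1]
  have h5 : DifferentiableAt ℂ f (u z) := by
    rw [huy, hε.eq y hyε]
    exact hf2.self_of_nhds
  have h6 : DifferentiableAt ℂ (fun t => f (u t)) z :=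
    DifferentiableAt.comp z h5 hu.differentiableAt
  exact h6.congr_of_eventuallyEq h4

/-- a lattice restricted to a subgroup of finite index -/
theorem near_normal {G : Subgroup Γ} (hlat : LatChar G q (fun g : G => c g)) (N : Subgroup Γ)
    [N.FiniteIndex] : ∃ C : ℝ, ∀ z : Cm q, ∃ g ∈ N, ‖z - c g‖ ≤ C := by
  obtain ⟨C, -, hC⟩ := hlat.near (N.subgroupOf G) ⊤ (fun v _ => by
    have h1 : ∀ g : G, c g ∈ Submodule.span ℝ ({v | ∃ g' ∈ N.subgroupOf G, c g' = v} ∩
        ((⊤ : Submodule ℝ (Cm q)) : Set (Cm q))) := by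
      intro g
      obtain ⟨k, hk, -, hkN⟩ := Subgroup.exists_pow_mem_of_index_ne_zero
        (Subgroup.FiniteIndex.index_ne_zero (H := N)) (g : Γ)
      have h2 : c ((g ^ (k : ℤ) : G) : Γ) = ((k : ℤ) : ℝ) • c g := hlat.map_zpow g k
      have h3 : c g = ((k : ℤ) : ℝ)⁻¹ • c ((g ^ (k : ℤ) : G) : Γ) := by
        rw [h2, smul_smul, inv_mul_cancel₀, one_smul]
        have : (0 : ℝ) < ((k : ℤ) : ℝ) := by exact_mod_cast hk
        exact this.ne'
      rw [h3]
      refine Submodule.smul_mem _ _ (Submodule.subset_span ⟨⟨g ^ (k : ℤ), ?_, rfl⟩, trivial⟩)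
      rw [Subgroup.mem_subgroupOf]
      simpa using hkN
    have h2 : Submodule.span ℝ (range fun g : G => c g) ≤ Submodule.span ℝ
        ({v | ∃ g' ∈ N.subgroupOf G, c g' = v} ∩ ((⊤ : Submodule ℝ (Cm q)) : Set (Cm q))) := by
      rw [Submodule.span_le]
      rintro v ⟨g, rfl⟩
      exact h1 g
    refine h2 ?_
    rw [hlat.span]
    trivial)
  refine ⟨C, fun z => ?_⟩
  obtain ⟨d, hd, -, hdz⟩ := hC z trivial
  exact ⟨d, hd, hdz⟩

/-- **The deck transformations are affine.** -/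
theorem psi_affine (hp : IsGalois Γ p) (hB : HolB p w F B) (hF : IsHomeomorph F)
    (hreg : ∀ y, Reg (n := n) p F y) {G : Subgroup Γ} [G.FiniteIndex]
    (hlat : LatChar G q (fun g : G => c g)) (heq : ∀ g ∈ G, ∀ y, F (g • y) = F y + c g) (γ : Γ) :
    ∃ (A : Cm q →L[ℂ] Cm q) (b : Cm q), ∀ y, F (γ • y) = A (F y) + b := by
  set ψ : Cm q → Cm q := fun z => F (γ • (hF.homeomorph F).symm z) with hψ
  have hFs : ∀ t, F ((hF.homeomorph F).symm t) = t := fun t => (hF.homeomorph F).apply_symm_apply t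
  have hsF : ∀ y, (hF.homeomorph F).symm (F y) = y := fun y => (hF.homeomorph F).symm_apply_apply y
  have hd : Differentiable ℂ ψ := psi_diff hp hB hF hreg γ
  obtain ⟨C, hC⟩ := near_normal hlat G.normalCore
  have hper : ∀ g ∈ G.normalCore, ∀ z, ψ (z + c g) = ψ z + c (γ * g * γ⁻¹) := by
    intro g hg z
    have hgG : g ∈ G := Subgroup.normalCore_le G hg
    have hgG' : γ * g * γ⁻¹ ∈ G :=
      Subgroup.normalCore_le G ((Subgroup.normalCore_normal G).conj_mem g hg γ)
    have h1 : (hF.homeomorph F).symm (z + c g) = g • (hF.homeomorph F).symm z := by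
      apply hF.injective
      rw [hFs, heq g hgG, hFs]
    simp only [hψ]
    rw [h1, ← heq _ hgG', smul_smul, smul_smul]
    congr 2
    group
  have hper' : ∀ g ∈ G.normalCore, ∀ z, fderiv ℂ ψ (z + c g) = fderiv ℂ ψ z := by
    intro g hg z
    have h1 : (fun z => ψ (z + c g)) = fun z => ψ z + c (γ * g * γ⁻¹) := funext (hper g hg)
    have h2 := congrArg (fun f => fderiv ℂ f z) h1
    simp only [fderiv_add_const] at h2
    rwa [fderiv_comp_add_right] at h2
  have hdd : Differentiable ℂ (fderiv ℂ ψ) := by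
    have h1 : ContDiff ℂ 2 ψ := contDiff_iff_contDiffAt.2 fun z =>
      (Vale.Agent.P268.analyticOnNhd_of_differentiableOn isOpen_univ hd.differentiableOn z
        (mem_univ z)).contDiffAt
    exact (h1.fderiv_right (m := 1) (by norm_num)).differentiable (by norm_num)
  have hbd : Bornology.IsBounded (range (fderiv ℂ ψ)) := by
    have h1 : range (fderiv ℂ ψ) ⊆ (fderiv ℂ ψ) '' closedBall 0 C := by
      rintro _ ⟨z, rfl⟩
      obtain ⟨g, hg, hgz⟩ := hC z
      refine ⟨z - c g, by rwa [mem_closedBall_zero_iff], ?_⟩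
      rw [← hper' g hg, sub_add_cancel]
    exact ((isCompact_closedBall 0 C).image hdd.continuous).isBounded.subset h1
  have hconst : ∀ z, fderiv ℂ ψ z = fderiv ℂ ψ 0 := fun z => hdd.apply_eq_apply_of_bounded hbd z 0
  refine ⟨fderiv ℂ ψ 0, ψ 0, fun y => ?_⟩
  have h1 : Differentiable ℂ (fun z => ψ z - fderiv ℂ ψ 0 z) :=
    hd.sub (fderiv ℂ ψ 0).differentiable
  have h2 : ∀ z, fderiv ℂ (fun z => ψ z - fderiv ℂ ψ 0 z) z = 0 := by
    intro z
    rw [fderiv_fun_sub (hd z) (fderiv ℂ ψ 0).differentiableAt, hconst z,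
      ContinuousLinearMap.fderiv, sub_self]
  have h3 := is_const_of_fderiv_eq_zero h1 h2 (F y) 0
  simp only [map_zero, sub_zero] at h3
  have h4 : ψ (F y) = F (γ • y) := by simp only [hψ, hsF]
  rw [← h4, ← h3]
  abel

/-- **An invariant positive definite matrix.** -/
theorem exists_inv (hp : IsGalois Γ p) (hB : HolB p w F B) (hF : IsHomeomorph F)
    (hreg : ∀ y, Reg (n := n) p F y) {G : Subgroup Γ} [G.FiniteIndex]
    (hlat : LatChar G q (fun g : G => c g)) (heq : ∀ g ∈ G, ∀ y, F (g • y) = F y + c g) :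
    ∃ (H : Matrix (Fin q) (Fin q) ℂ) (M : Γ → Matrix (Fin q) (Fin q) ℂ) (b : Γ → Cm q),
      H.PosDef ∧ (∀ γ y, F (γ • y) = M γ *ᵥ F y + b γ) ∧
      ∀ γ, (M γ)ᵀ * H * (M γ).map (starRingEnd ℂ) = H := by
  choose A b hAb using psi_affine hp hB hF hreg hlat heq
  set M : Γ → Matrix (Fin q) (Fin q) ℂ := fun γ =>
    LinearMap.toMatrix' (A γ : Cm q →ₗ[ℂ] Cm q) with hM
  have hMA : ∀ γ v, M γ *ᵥ v = A γ v := fun γ v => LinearMap.toMatrix'_mulVec _ _
  have hMb : ∀ γ y, F (γ • y) = M γ *ᵥ F y + b γ := fun γ y => by rw [hMA]; exact hAb γ y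
  have huniq : ∀ (γ : Γ) (A' : Matrix (Fin q) (Fin q) ℂ) (b' : Cm q),
      (∀ y, F (γ • y) = A' *ᵥ F y + b') → M γ = A' := by
    intro γ A' b' h
    have h1 : ∀ z, M γ *ᵥ z + b γ = A' *ᵥ z + b' := by
      intro z
      obtain ⟨y, rfl⟩ := hF.surjective z
      rw [← hMb, h]
    have h2 : b γ = b' := by simpa using h1 0
    have h3 : ∀ z, M γ *ᵥ z = A' *ᵥ z := fun z => by
      have := h1 z
      rw [h2] at this
      exact add_right_cancel this
    exact Matrix.ext_of_mulVec_single fun i => h3 _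
  have hmul : ∀ γ δ, M (γ * δ) = M γ * M δ := fun γ δ =>
    huniq _ _ (M γ *ᵥ b δ + b γ) fun y => by
      rw [mul_smul, hMb, hMb, Matrix.mulVec_add, Matrix.mulVec_mulVec, add_assoc]
  have hone : ∀ g ∈ G, M g = 1 := fun g hg =>
    huniq _ _ (c g) fun y => by rw [heq g hg, Matrix.one_mulVec]
  have hcong : ∀ γ γ' : Γ, (γ : Γ ⧸ G.normalCore) = γ' → M γ = M γ' := by
    intro γ γ' h
    have h1 : γ⁻¹ * γ' ∈ G.normalCore := QuotientGroup.eq.1 h
    have h2 : M γ' = M γ * M (γ⁻¹ * γ') := by rw [← hmul]; congr 1; group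
    rw [h2, hone _ (Subgroup.normalCore_le G h1), mul_one]
  have : Fintype (Γ ⧸ G.normalCore) := Fintype.ofFinite _
  set mq : Γ ⧸ G.normalCore → Matrix (Fin q) (Fin q) ℂ := fun x => M x.out with hmq
  have hmqγ : ∀ γ : Γ, mq γ = M γ := fun γ => hcong _ _ (QuotientGroup.out_eq' _)
  have hT : ∀ D : Matrix (Fin q) (Fin q) ℂ, (Dᵀ)ᴴ = D.map (starRingEnd ℂ) := fun D => by
    ext i j
    simp [Matrix.conjTranspose_apply]
  set H : Matrix (Fin q) (Fin q) ℂ := ∑ x, (mq x)ᵀ * (mq x).map (starRingEnd ℂ) with hH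
  refine ⟨H, M, b, ?_, hMb, fun δ => ?_⟩
  · classical
    have h1 : H = (1 : Matrix (Fin q) (Fin q) ℂ) +
        ∑ x ∈ Finset.univ.erase (1 : Γ ⧸ G.normalCore), (mq x)ᵀ * (mq x).map (starRingEnd ℂ) := by
      rw [hH, ← Finset.add_sum_erase _ _ (Finset.mem_univ (1 : Γ ⧸ G.normalCore))]
      congr 1
      have h2 : mq 1 = 1 := (hmqγ 1).trans (hone 1 G.one_mem)
      rw [h2, ← hT, Matrix.transpose_one, Matrix.conjTranspose_one, mul_one]
    rw [h1]
    refine Matrix.PosDef.one.add_posSemidef ?_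
    refine Matrix.posSemidef_sum _ fun x _ => ?_
    rw [← hT]
    exact Matrix.posSemidef_self_mul_conjTranspose _
  · have h1 : ∀ x : Γ ⧸ G.normalCore, (M δ)ᵀ * ((mq x)ᵀ * (mq x).map (starRingEnd ℂ)) *
        (M δ).map (starRingEnd ℂ) =
          (mq (x * δ))ᵀ * (mq (x * δ)).map (starRingEnd ℂ) := by
      intro x
      obtain ⟨γ, rfl⟩ := QuotientGroup.mk_surjective x
      have h2 : mq ((γ : Γ ⧸ G.normalCore) * δ) = M γ * M δ := by
        rw [← hmul, ← hmqγ]
        rfl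
      rw [h2, show mq (QuotientGroup.mk γ) = M γ from hmqγ γ, Matrix.transpose_mul,
        Matrix.map_mul]
      simp only [Matrix.mul_assoc]
    rw [hH, Finset.mul_sum, Finset.sum_mul]
    simp only [h1]
    exact Equiv.sum_comp (Equiv.mulRight (δ : Γ ⧸ G.normalCore))
      (fun x => (mq x)ᵀ * (mq x).map (starRingEnd ℂ))

end

end Vale.Agent.P284.H500.Iit
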