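import Vale.Agent.P284.H500.Iit.Geo1
import Vale.Agent.P284.H731.S2b

/-!
# P284 (helper500), uniformisation, part 6: two simply connected coverings are isomorphic; holomorphic
functions on the universal covering `ℂⁿ`
-/

open scoped Manifold ContDiff Topology
open Filter Set Metric

noncomputable section

namespace Vale.Agent.P284.H500.Iit

open Vale.Agent.P272.K Vale.Agent.P284.H894.G

/-- Two simply connected covering spaces of a manifold are isomorphic. -/
theorem exists_homeo (n : ℕ) {X E E' : Type} [TopologicalSpace X] [ChartedSpace (Cm n) X]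
    [TopologicalSpace E] [TopologicalSpace E'] [SimplyConnectedSpace E] [SimplyConnectedSpace E']
    {p : E → X} {p' : E' → X} (hp : IsCoveringMap p) (hp' : IsCoveringMap p')
    (hs : Function.Surjective p') : ∃ h : E ≃ₜ E', ∀ y, p' (h y) = p y := by
  have : LocallyPathConnectedSpace E := Vale.Agent.P284.H731.S2.locPath n hp
  have : LocallyPathConnectedSpace E' := Vale.Agent.P284.H731.S2.locPath n hp'
  obtain ⟨y₀⟩ : Nonempty E := inferInstance
  obtain ⟨y₁, hy₁⟩ := hs (p y₀)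
  obtain ⟨f, ⟨hf0, hf⟩, -⟩ := hp'.existsUnique_continuousMap_lifts ⟨p, hp.continuous⟩ y₀ y₁ hy₁
  obtain ⟨g, ⟨hg0, hg⟩, -⟩ := hp.existsUnique_continuousMap_lifts ⟨p', hp'.continuous⟩ y₁ y₀
    hy₁.symm
  have hfp : ∀ y, p' (f y) = p y := fun y => congrFun hf y
  have hgp : ∀ y, p (g y) = p' y := fun y => congrFun hg y
  have h1 : g.comp f = ContinuousMap.id E := by
    refine (hp.existsUnique_continuousMap_lifts ⟨p, hp.continuous⟩ y₀ y₀ rfl).unique
      ⟨?_, ?_⟩ ⟨rfl, rfl⟩
    · show g (f y₀) = y₀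
      rw [hf0, hg0]
    · funext y
      show p (g (f y)) = p y
      rw [hgp, hfp]
  have h2 : f.comp g = ContinuousMap.id E' := by
    refine (hp'.existsUnique_continuousMap_lifts ⟨p', hp'.continuous⟩ y₁ y₁ rfl).unique
      ⟨?_, ?_⟩ ⟨rfl, rfl⟩
    · show f (g y₁) = y₁
      rw [hg0, hf0]
    · funext y
      show p' (f (g y)) = p' y
      rw [hfp, hgp]
  exact ⟨{ toFun := f, invFun := g
           left_inv := fun y => congrArg (fun k => k y) h1
           right_inv := fun y => congrArg (fun k => k y) h2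
           continuous_toFun := f.continuous, continuous_invFun := g.continuous }, hfp⟩

section
variable {n : ℕ} {X : Type} [TopologicalSpace X] [ChartedSpace (Cm n) X] {E E' : Type}
  [TopologicalSpace E] [TopologicalSpace E'] {p : E → X} {p' : E' → X}

theorem HSep.transfer (h : E ≃ₜ E') (hh : ∀ y, p' (h y) = p y) (hs : HSep n p') : HSep n p := by
  intro y y' hne
  obtain ⟨g, hg, hgy⟩ := hs (h y) (h y') (h.injective.ne hne)
  refine ⟨fun z => g (h z), fun z e he => ?_, hgy⟩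
  rw [← hh] at he
  obtain ⟨f, h1, h2⟩ := hg (h z) e he
  rw [hh] at h1
  refine ⟨f, h1, ?_⟩
  filter_upwards [h.continuous.continuousAt.eventually h2] with z' hz'
  rw [hz', hh]

/-- the coordinates of `ℂⁿ` separate the points of the covering space `ℂⁿ` -/
theorem hsep_cn [IsManifold 𝓘(ℂ, Cm n) ω X] {P : Cm n → X}
    (hP : IsLocalDiffeomorph 𝓘(ℂ, Cm n) 𝓘(ℂ, Cm n) ω P) : HSep n P := by
  intro y y' hne
  obtain ⟨j, hj⟩ := Function.ne_iff.1 hne
  refine ⟨fun z => z j, fun z e he => ?_, hj⟩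
  obtain ⟨Φ, hzΦ, hΦ⟩ := hP z
  have hΦz : Φ z = P z := (hΦ hzΦ).symm
  have hs1 : ContMDiffAt 𝓘(ℂ, Cm n) 𝓘(ℂ, Cm n) ω Φ.symm (P z) := by
    rw [← hΦz]
    exact Φ.symm.contMDiffOn_toFun.contMDiffAt (Φ.open_target.mem_nhds (Φ.map_source hzΦ))
  have hs2 : ContMDiffAt 𝓘(ℂ, Cm n) 𝓘(ℂ, Cm n) ω e.symm (e (P z)) :=
    chart_symm_contMDiffAt he.1 (e.map_source he.2)
  have hs3 : e.symm (e (P z)) = P z := e.left_inv he.2
  have hs4 : ContMDiffAt 𝓘(ℂ, Cm n) 𝓘(ℂ, Cm n) ω (fun u => Φ.symm (e.symm u)) (e (P z)) := by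
    refine ContMDiffAt.comp (e (P z)) (g := Φ.symm) ?_ hs2
    rw [hs3]
    exact hs1
  rw [contMDiffAt_iff_contDiffAt] at hs4
  refine ⟨fun u => Φ.symm (e.symm u) j, ?_, ?_⟩
  · exact (contDiffAt_pi.1 hs4 j).analyticAt
  · have hPc : ContinuousAt P z := (IsLocalDiffeomorph.contMDiff hP).continuous.continuousAt
    filter_upwards [Φ.open_source.mem_nhds hzΦ, hPc.eventually (e.open_source.mem_nhds he.2)]
      with z' h1 h2
    rw [e.left_inv h2, hΦ h1]
    exact congrFun (Φ.left_inv h1).symm j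

end

end Vale.Agent.P284.H500.Iit
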