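import Vale.Agent.P284.H500.Iit.Can
import Vale.Agent.P284.H500.Iit.Uc

/-!
# P284 (helper500), uniformisation, part 7: the data, and the flat metric
-/

open scoped Manifold ContDiff Topology
open Filter Set Metric

noncomputable section

namespace Vale.Agent.P284.H500.Iit

open Vale.Agent.P272.K Vale.Agent.P284.H894.G Vale.Agent.P284.H894.W Vale.Agent.P284.H213.Grp
open Vale.Agent.P285.H281.FD (Bd)

section
variable (n : ℕ) (X : Type) [TopologicalSpace X] [ChartedSpace (Cm n) X]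

/-- The universal covering of `X` is `ℂⁿ`, and a finite covering of `X` is a torus. -/
def UData : Prop :=
  ∃ (E Γ : Type) (_ : TopologicalSpace E) (_ : SimplyConnectedSpace E) (_ : Group Γ)
    (_ : MulAction Γ E) (p : E → X) (w : Chart n X → Cm n → Matrix (Fin n) (Fin n) ℂ)
    (G : Subgroup Γ) (F : E → Cm n) (c : Γ → Cm n) (B : ℝ),
    IsKahler w ∧ IsGalois Γ p ∧ G.FiniteIndex ∧ HolB p w F B ∧
      (∀ g ∈ G, ∀ y, F (g • y) = F y + c g) ∧ LatChar G n (fun g : G => c g) ∧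
      IsHomeomorph F ∧ ∀ y, Reg (n := n) p F y

variable {n X}

/-- The metric is flat. -/
def FlatMet (w : Chart n X → Cm n → Matrix (Fin n) (Fin n) ℂ) : Prop :=
  ∀ e x, At e x → ∀ i j k l, curv (w e) (e x) i j k l = 0

theorem FlatMet.nonpos {w : Chart n X → Cm n → Matrix (Fin n) (Fin n) ℂ} (h : FlatMet w) :
    NonposHSC w := by
  intro e x he ξ
  have h1 : ∀ i j k l, curv (w e) (e x) i j k l *
      (ξ i * (starRingEnd ℂ) (ξ j) * ξ k * (starRingEnd ℂ) (ξ l)) = 0 := fun i j k l => by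
    rw [h e x he, zero_mul]
  simp [h1]

/-- the flat metric -/
theorem UData.flat [IsManifold 𝓘(ℂ, Cm n) ω X] (h : UData n X) :
    ∃ w' : Chart n X → Cm n → Matrix (Fin n) (Fin n) ℂ, IsKahler w' ∧ FlatMet w' ∧
      Vale.Agent.P285.H281.FD.Flat n (Bd.can n X) := by
  obtain ⟨E, Γ, _, _, _, _, p, w, G, F, c, B, -, hp, hfi, hB, heq, hlat, hhom, hreg⟩ := h
  obtain ⟨H, M, b, hH, hMb, hinv⟩ := exists_inv hp hB hhom hreg hlat heq
  obtain ⟨h1, h2⟩ := fm_flat hp hB hreg hH hMb hinv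
  exact ⟨fm p F H, h1, h2, fm_can hp hB hreg hH hMb hinv⟩

end

end Vale.Agent.P284.H500.Iit
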