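import Vale.Agent.P272.K.Stmt
import Mathlib.AlgebraicTopology.FundamentalGroupoid.SimplyConnected
import Mathlib.Geometry.Manifold.LocalDiffeomorph
import Mathlib.Topology.Covering.Basic

/-!
# Manifolds with universal covering `ℂⁿ`, finite étale quotients of tori: definitions
-/

open scoped Manifold ContDiff Topology
open Filter

noncomputable section

namespace Vale.Agent.P284.H500.Iit

open Vale.Agent.P272.K

section
variable {X : Type} [TopologicalSpace X] {E : Type} [TopologicalSpace E]

/-- The function `g` on the covering space `E` of `X` is holomorphic. -/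
def HFn (n : ℕ) [ChartedSpace (Cm n) X] (p : E → X) (g : E → ℂ) : Prop :=
  ∀ (y : E) (e : Chart n X), At e (p y) → ∃ f : Cm n → ℂ, AnalyticAt ℂ f (e (p y)) ∧
    ∀ᶠ y' in 𝓝 y, g y' = f (e (p y'))

/-- The holomorphic functions on the covering space `E` separate the points of `E`. -/
def HSep (n : ℕ) [ChartedSpace (Cm n) X] (p : E → X) : Prop :=
  ∀ y y' : E, y ≠ y' → ∃ g : E → ℂ, HFn n p g ∧ g y ≠ g y'

end

section
variable (n : ℕ) {X : Type} [TopologicalSpace X] [ChartedSpace (Cm n) X]

/-- The map `P : ℂⁿ → X` is locally biholomorphic. -/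
def LocBi (P : Cm n → X) : Prop := IsLocalDiffeomorph 𝓘(ℂ, Cm n) 𝓘(ℂ, Cm n) ω P

variable (X)

/-- The holomorphic functions of the universal covering of `X` separate its points. -/
def UCSep : Prop :=
  ∃ (E : Type) (_ : TopologicalSpace E) (_ : SimplyConnectedSpace E) (p : E → X),
    IsCoveringMap p ∧ HSep n p

/-- The universal covering of `X` is biholomorphic to `ℂⁿ`: there is a covering map `ℂⁿ → X` which is
locally biholomorphic. -/
def UnivCn : Prop := ∃ P : Cm n → X, IsCoveringMap P ∧ LocBi n P

/-- `X` is a finite étale quotient of a complex torus: there is a surjective locally biholomorphic map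
`ℂⁿ → X` which is invariant under a group of translations, every vector being at bounded distance from
this group. -/
def IsTorusQuot : Prop :=
  ∃ (q : Cm n → X) (Λ : AddSubgroup (Cm n)) (R : ℝ), LocBi n q ∧ Function.Surjective q ∧
    (∀ l ∈ Λ, ∀ z, q (z + l) = q z) ∧ ∀ z, ∃ l ∈ Λ, ‖z - l‖ ≤ R

end

end Vale.Agent.P284.H500.Iit
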