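import Vale.Agent.P284.H500.Iit.Def0
import Vale.Agent.P284.H478.FinS
import Vale.Agent.P284.H894.AE.Spec
import Vale.Agent.P284.H894.AE.TanSpec

/-!
# Manifolds with universal covering `ℂⁿ`: definitions for the statements
-/

open scoped Manifold ContDiff

noncomputable section

namespace Vale.Agent.P284.H500.Iit

open Vale.Agent.P272.K Vale.Agent.P284.H248 Vale.Agent.P284.H894 Vale.Agent.P284.H894.G
  Vale.Agent.P284.H894.V Vale.Agent.P284.H894.F Vale.Agent.P284.H894.AE Vale.Agent.P284.H478

variable (n : ℕ) (X : Type) [TopologicalSpace X] [ChartedSpace (Cm n) X]

/-- The universal covering of `X` is `ℂⁿ`; or its holomorphic functions separate points, `X` is dominated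
by a complex vector space, and the fundamental group of `X` is amenable, or almost every point of `X` is
joined to a countable set by entire curves, or the velocities of the entire curves through almost every
point span. -/
def IsUnif : Prop :=
  UnivCn n X ∨ UCSep n X ∧ Dominated n X ∧
    ∃ x : X, Folner (FundamentalGroup X x) ∨ AECurveConnected n x ∨ AECurveSpanned n x

end Vale.Agent.P284.H500.Iit
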