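import Vale.Agent.P284.H500.Iit.Fin

/-!
# Uniformised compact Kähler manifolds, dominated form: definition and flat metrics
-/

open scoped Manifold ContDiff

noncomputable section

namespace Vale.Agent.P284.H500.Iit

open Vale.Agent.P272.K Vale.Agent.P284.H248 Vale.Agent.P284.H894.G Vale.Agent.P284.H894.F

/-- The universal covering of `X` is `ℂⁿ`; or its holomorphic functions separate points, `X` is dominated
by a complex vector space, and the fundamental group of `X` is amenable, or almost every point of an open
set `U`, the image of `π₁(U)` being of finite index, is joined to a countable set by entire curves, or the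
velocities of the entire curves through almost every point of such a `U` span. -/
def IsUnifD (n : ℕ) (X : Type) [TopologicalSpace X] [ChartedSpace (Cm n) X] : Prop :=
  UnivCn n X ∨ UCSep n X ∧ DomBy n X ∧
    ∃ x : X, Folner (FundamentalGroup X x) ∨ AECurveConnected n x ∨ AECurveSpanned n x

theorem IsUnifD.unifK {n : ℕ} {X : Type} [TopologicalSpace X] [ChartedSpace (Cm n) X]
    (h : IsUnifD n X) : IsUnifK n X := by
  rcases h with h | ⟨h1, h2, h3⟩
  · exact Or.inl h
  · exact Or.inr ⟨h1, Or.inr h2, h3⟩

end Vale.Agent.P284.H500.Iit
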