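import Vale.Agent.P284.H500.Iit.Def0
import Vale.Agent.P284.H248.Defs
import Vale.Agent.P284.H894.F.DefsA
import Vale.Agent.P284.H894.F.DefsT

/-!
# Uniformised compact Kähler manifolds: definitions for the statements
-/

open scoped Manifold

noncomputable section

namespace Vale.Agent.P284.H500.Iit

open Vale.Agent.P272.K Vale.Agent.P284.H248 Vale.Agent.P284.H894.G Vale.Agent.P284.H894.F

variable (n : ℕ) (X : Type) [TopologicalSpace X] [ChartedSpace (Cm n) X]

/-- `X` is dominated by a complex vector space: there is a holomorphic map `Φ : ℂᴺ → X`, for some `N`,
whose image has an interior point. -/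
def DomBy : Prop :=
  ∃ (N : ℕ) (Φ : Cm N → X), Continuous Φ ∧
    (∀ ζ (e : Chart n X), At e (Φ ζ) → AnalyticAt ℂ (fun ξ => e (Φ ξ)) ζ) ∧
    (interior (Set.range Φ)).Nonempty

/-- The universal covering of `X` is `ℂⁿ`; or its holomorphic functions separate points, `X` is special or
dominated by a complex vector space, and the fundamental group of `X` is amenable, or almost every point of
an open set `U`, the image of `π₁(U)` being of finite index, is joined to a countable set by entire curves,
or the velocities of the entire curves through almost every point of such a `U` span. -/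
def IsUnifK : Prop :=
  UnivCn n X ∨ UCSep n X ∧ (Special n X ∨ DomBy n X) ∧
    ∃ x : X, Folner (FundamentalGroup X x) ∨ AECurveConnected n x ∨ AECurveSpanned n x

end Vale.Agent.P284.H500.Iit
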