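import Vale.Agent.P284.H500.Iit.Data
import Vale.Agent.P284.H478.Fin
import Vale.Agent.P284.H213.Q.FinH
import Vale.Agent.P284.H174.AlbD

/-!
# P284 (helper500), uniformisation, part 7: projective manifolds dominated by complex vector spaces

A projective manifold which is dominated by a complex vector space, has amenable fundamental group and
holomorphically separable universal covering carries a flat Kähler metric. In particular so does every
projective manifold with universal covering `ℂⁿ`.
-/

open scoped Manifold ContDiff Topology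
open Filter Set Metric

noncomputable section

namespace Vale.Agent.P284.H500.Iit

open Vale.Agent.P272.K Vale.Agent.P284.H248 Vale.Agent.P284.H894 Vale.Agent.P284.H894.G
  Vale.Agent.P284.H894.V Vale.Agent.P284.H894.W Vale.Agent.P284.H894.F Vale.Agent.P284.H894.AE
  Vale.Agent.P284.H998 Vale.Agent.P284.H213.Q Vale.Agent.P284.H478

section
variable {n : ℕ} {X : Type} [TopologicalSpace X] [ChartedSpace (Cm n) X]

theorem UnivCn.sep [IsManifold 𝓘(ℂ, Cm n) ω X] (h : UnivCn n X) : UCSep n X := by
  obtain ⟨P, hP, hd⟩ := h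
  exact ⟨Cm n, inferInstance, inferInstance, P, hP, hsep_cn hd⟩

theorem UnivCn.dominated [IsManifold 𝓘(ℂ, Cm n) ω X] (h : UnivCn n X) : Dominated n X := by
  obtain ⟨P, hP, hd⟩ := h
  exact ⟨n, P, IsLocalDiffeomorph.contMDiff hd, 0,
    ((hd 0).mfderivToContinuousLinearEquiv (by simp)).surjective⟩

theorem UnivCn.surj [T2Space X] [CompactSpace X] [ConnectedSpace X] [IsManifold 𝓘(ℂ, Cm n) ω X]
    {P : Cm n → X} (hP : IsCoveringMap P) : Function.Surjective P := by
  obtain ⟨x₀⟩ : Nonempty X := inferInstance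
  obtain ⟨E, Γ, _, _, _, _, p, -, hp⟩ := Vale.Agent.P284.H977.exists_uc (n := n) X x₀
  obtain ⟨h, hh⟩ := exists_homeo n hP hp.cov hp.surj
  intro x
  obtain ⟨y, rfl⟩ := hp.surj x
  exact ⟨h.symm y, by rw [← hh, h.apply_symm_apply]⟩

end

/-- the uniformisation, for any class with its Albanese theory -/
theorem udata_of_cls {D : Cls} (hst : EtSt D) (hA : AlbUD D) (hM : MFD D) (hCo : CoreD D)
    {n : ℕ} {X : Type} [TopologicalSpace X] [T2Space X] [CompactSpace X] [ConnectedSpace X]
    [ChartedSpace (Cm n) X] [IsManifold 𝓘(ℂ, Cm n) ω X] (hX : Embedded n X) (hD : D n X) (x : X)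
    (hF : Folner (FundamentalGroup X x)) (hsep : UCSep n X) : UData n X := by
  obtain ⟨ι, hι, ⟨J⟩⟩ := exists_pj hX
  have hw := H212.pjFS_isKahler J
  obtain ⟨E, Γ, tE, sE, gΓ, aΓ, p, iso, hp⟩ := Vale.Agent.P284.H977.exists_uc (n := n) X x
  have hQ : Folner Γ := Vale.Agent.P284.H465.V19.folner_of_equiv iso hF
  obtain ⟨E', _, _, p', hp', hs'⟩ := hsep
  obtain ⟨h, hh⟩ := exists_homeo n hp' hp.cov hp.surj
  have hsE : HSep n p := hs'.transfer h.symm fun y => by rw [← hh, h.apply_symm_apply]
  obtain ⟨G, F, c, hfi, ⟨B, hB⟩, heq, hlat, hhom, hreg⟩ :=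
    uniformize hst hA hM hCo n X ι J hD _ hw E Γ p hp hQ hsE
  exact ⟨E, Γ, tE, sE, gΓ, aΓ, p, _, G, F, c, B, hw, hp, hfi, hB, heq, hlat, hhom, hreg⟩

theorem coreD_domW (N : ℕ) : CoreD fun n X _ _ => H174.GD.DomW N n X :=
  coreDU (H213.MF.sigD_domW N)

/-- **Dominated manifolds**: projective, dominated by a complex vector space, amenable fundamental group,
holomorphically separable universal covering. -/
theorem udata_of_dominated {n : ℕ} {X : Type} [TopologicalSpace X] [T2Space X] [CompactSpace X]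
    [ConnectedSpace X] [ChartedSpace (Cm n) X] [IsManifold 𝓘(ℂ, Cm n) ω X] (hX : Embedded n X)
    (hD : Dominated n X) (x : X)
    (h : Folner (FundamentalGroup X x) ∨ SubexpGrowth (FundamentalGroup X x) ∨
      AECurveConnected n x ∨ AECurveSpanned n x) (hsep : UCSep n X) : UData n X := by
  have hF : Folner (FundamentalGroup X x) := by
    obtain ⟨ι, hι, ⟨J⟩⟩ := exists_pj hX
    have hw := H212.pjFS_isKahler J
    rcases h with h | h | h
    · exact h
    · exact h.folner
    · exact (growth_or tanConcl hw x h).folner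
  obtain ⟨N, hN⟩ := dominated_iff.1 hD
  exact udata_of_cls (H174.etSt_domW N) (H174.albUD_domW N)
    (H213.MF.mfDU (H213.MF.sigD_domW N) (H213.MF.noRamD_domW N)) (coreD_domW N) hX hN x hF hsep

/-- **Iitaka's conjecture for projective manifolds.** -/
theorem udata_of_univ {n : ℕ} {X : Type} [TopologicalSpace X] [T2Space X] [CompactSpace X]
    [ConnectedSpace X] [ChartedSpace (Cm n) X] [IsManifold 𝓘(ℂ, Cm n) ω X] (hX : Embedded n X)
    (h : UnivCn n X) : UData n X := by
  obtain ⟨x⟩ : Nonempty X := inferInstance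
  refine udata_of_dominated hX h.dominated x (Or.inr (Or.inr (Or.inl ?_))) h.sep
  obtain ⟨P, hP, hd⟩ := h
  have hs := UnivCn.surj (n := n) hP
  refine ae_of_range (IsLocalDiffeomorph.contMDiff hd) ?_ x
  rw [hs.range_eq, compl_univ]
  intro e he
  simp

end Vale.Agent.P284.H500.Iit
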