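import Vale.Agent.P284.H500.Iit.UnifK
import Vale.Agent.P284.H661.D.Main
import Vale.Agent.P284.H248.Fin

/-!
# P284 (helper500): Iitaka's conjecture for compact Kähler manifolds

A compact Kähler manifold with universal covering `ℂⁿ` is a finite étale quotient of a complex torus.
-/

open scoped Manifold ContDiff Topology
open Filter Set Metric

noncomputable section

namespace Vale.Agent.P284.H500.Iit

open Vale.Agent.P272.K Vale.Agent.P284.H248

/-- **DOM ⇒ SPECIAL**, compact Kähler manifolds (project D) -/
theorem domSp : DomSp := fun n N X _ _ _ _ _ _ w hw hD =>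
  Vale.Agent.P284.H661.D.special_of_domWK n N X w hw hD

/-- uniformised compact Kähler manifolds carry flat Kähler metrics -/
theorem flat_of_unifK {n : ℕ} {X : Type} [TopologicalSpace X] [T2Space X] [CompactSpace X]
    [ConnectedSpace X] [ChartedSpace (Cm n) X] [IsManifold 𝓘(ℂ, Cm n) ω X]
    {w : Chart n X → Cm n → Matrix (Fin n) (Fin n) ℂ} (hw : IsKahler w) (h : IsUnifK n X) :
    ∃ w' : Chart n X → Cm n → Matrix (Fin n) (Fin n) ℂ, IsKahler w' ∧ FlatMet w' ∧
      Vale.Agent.P285.H281.FD.Flat n (Vale.Agent.P285.H281.FD.Bd.can n X) :=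
  (udata_of_unifK domSp hw h).flat

end Vale.Agent.P284.H500.Iit
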