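import Vale.Agent.P284.H500.Iit.Geo2
import Vale.Agent.P284.H213.Q.AsmQ

/-!
# P284 (helper500), uniformisation, part 3: amenable group, the kernel of the Albanese periods is finite,
and the Albanese map is a homeomorphism if the holomorphic functions of the covering separate points
-/

open scoped Manifold ContDiff Topology Pointwise ComplexConjugate ComplexOrder
open Filter Set Metric MeasureTheory

noncomputable section

namespace Vale.Agent.P284.H500.Iit

open Vale.Agent.P272.K Vale.Agent.P284.H248 Vale.Agent.P284.H894 Vale.Agent.P284.H894.G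
  Vale.Agent.P284.H894.V Vale.Agent.P284.H894.W Vale.Agent.P284.H894.F Vale.Agent.P284.H998
  Vale.Agent.P284.H213.Grp Vale.Agent.P284.H409.A Vale.Agent.P284.H913.Tube Vale.Agent.P284.H10
  Vale.Agent.P284.H213.Q

/-- **The kernel of the periods is finite** (amenable group). -/
theorem finK {D : Cls} (hst : EtSt D) (hM : MFD D) (hCo : CoreD D)
    (n : ℕ) (X : Type) [TopologicalSpace X] [T2Space X] [CompactSpace X] [ConnectedSpace X]
    [ChartedSpace (Cm n) X] [IsManifold 𝓘(ℂ, Cm n) ω X] (ι : Type) [Fintype ι] (J : PJ n X ι)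
    (hD : D n X) (w : Chart n X → Cm n → Matrix (Fin n) (Fin n) ℂ) (hw : IsKahler w)
    (E Γ : Type) [TopologicalSpace E] [SimplyConnectedSpace E] [Group Γ] [MulAction Γ E]
    (p : E → X) (hp : IsGalois Γ p) (hQ : Folner Γ) (G K : Subgroup Γ) (N : ℕ) (F : E → Cm N)
    (c : Γ → Cm N) (hAl : Alb p w G K F c) (y₀ : E) (hreg : Reg (n := n) p F y₀) : Finite K := by
  obtain ⟨_, _, _, hfg, -⟩ := H639.V.v15Stmt n X w hw E Γ p hp
  have hadd := alb_add hAl
  have hlat := latChar_of_alb hAl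
  obtain ⟨B, hB⟩ := hAl.hol
  obtain ⟨Y, _, _, _, _, _, _, pY, π, hπ, hπc, hpY, hπp⟩ := H885.exists_quo n X E Γ p hp G hAl.fi
  have hDY : D n Y := hst n X Y π hπ hπc hD
  have hwY : IsKahler (H885.pull π w) := hπ.isKahler hw
  have hBY : HolB pY (H885.pull π w) F B := hπ.holB hπp hB
  have hregY : Reg (n := n) pY F y₀ := (hπ.reg_iff hπp).2 hreg
  have hequiv : ∀ (g : G) (y : E), F (g • y) = F y + c g := fun g y => hAl.equiv g g.2 y
  have hgcY : GenConn (n := n) pY F := hM n Y ι (hπ.pj J) hDY _ hwY E G pY hpY N F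
    (fun g : G => c g) ⟨B, hBY⟩ hequiv hlat ⟨y₀, hregY⟩
  have hgc : GenConn (n := n) p F := by
    obtain ⟨T, hT, hTi, hTS⟩ := hgcY
    exact ⟨T, hT, hTi, fun t ht => ⟨(hTS t ht).1, fun y hy => (hπ.reg_iff hπp).1 ((hTS t ht).2 y hy)⟩⟩
  have hKG : K ≤ G := fun g hg => ((hAl.mem g).1 hg).1
  have hKmem : ∀ g : G, g ∈ K.subgroupOf G ↔ c g = 0 := fun g => by
    rw [Subgroup.mem_subgroupOf, hAl.mem]
    exact ⟨fun h => h.2, fun h => ⟨g.2, h⟩⟩
  have hKfgG : Group.FG (K.subgroupOf G) := by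
    obtain ⟨T, hT, hTi, hTS⟩ := hgc
    obtain ⟨t, ht⟩ : ∃ t, t ∉ T := by
      by_contra hcon
      push Not at hcon
      have h1 : T = univ := eq_univ_of_forall hcon
      rw [h1, interior_univ] at hTi
      exact univ_nonempty.ne_empty hTi
    refine fg_of_conn n hpY (H221.holB_cont hp.cov hB) hequiv hlat.disc (K.subgroupOf G)
      (fun k hk => (hKmem k).1 hk) ⟨{1}, finite_singleton _, fun g hg => ⟨1, rfl, ?_⟩⟩ (hTS t ht).1
    rw [inv_one, one_mul]
    exact (hKmem g).2 hg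
  let e : K.subgroupOf G ≃* K := Subgroup.subgroupOfEquivOfLe hKG
  have hKfg : Group.FG K := Group.fg_of_surjective (f := e.toMonoidHom) e.surjective
  set f : Γ →* Γ := MonoidHom.id Γ with hf'
  have hf : Function.Surjective f := fun g => ⟨g, rfl⟩
  have hKf : K.map f = K := Subgroup.map_id K
  have hKffg : Group.FG (K.map f) :=
    Group.fg_of_surjective (f := f.subgroupMap K) (f.subgroupMap_surjective K)
  by_contra hKn
  have hK : Infinite (K.map f) := by
    rw [hKf]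
    exact not_finite_iff_infinite.1 hKn
  have hnvi : ¬ VirtIndicable (K.map f) := fun hv => end_of_reg hw hp hAl ⟨y₀, hreg⟩
    (grpAStmt Γ Γ f hf hfg G K hAl.fi N c hadd hAl.mem hAl.disc hAl.span hKffg hv
      (uni_of_conn hw hp hAl hgc))
  have hmap : (K.subgroupOf G).map (f.comp G.subtype) = K.map f := by
    rw [← Subgroup.map_map, Subgroup.subgroupOf_map_subtype, inf_eq_left.2 hKG]
  obtain ⟨M, hMn, q₁, L, c₁, K₁, hL, hc₁, hN, hFM⟩ := normQ (f.comp G.subtype) hQ N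
    (fun g : G => c g) hlat (K.subgroupOf G) hKmem hKfgG (by rw [hmap]; exact hK)
    (by rw [hmap]; exact hnvi)
  obtain ⟨B', hB'⟩ := HolB.linear hBY L
  have hinv : ∀ m ∈ M, ∀ y, L (F (m • y)) = L (F y) := by
    intro m hm y
    have h1 : (m : G ⧸ M) = ((1 : G) : G ⧸ M) := by
      rw [QuotientGroup.eq]
      simpa using hm
    have h2 := hc₁ m
    rw [h1, hc₁ 1] at h2
    have h3 : L (c (1 : G)) = 0 := by rw [hlat.map_one, map_zero]
    rw [hequiv, map_add, ← h2, h3, add_zero]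
  have hp₁ := H885.isGalois_toX hpY M
  have hcon₁ : ConnectedSpace (H885.Quo E M) := H885.connected_quo M
  let F₁ : H885.Quo E M → Cm q₁ := H885.desc M (fun y => L (F y)) hinv
  have hF₁ : HolB (H885.toX hpY M) (H885.pull π w) F₁ B' := H885.holB_desc hpY M hinv hB'
  have hregL : Reg (n := n) pY (fun y => L (F y)) y₀ := Reg.linear hpY.cov hBY L hL hregY
  have hreg₁ : Reg (n := n) (H885.toX hpY M) F₁ (H885.mk M y₀) :=
    (H885.reg_desc hpY M hinv y₀).2 hregL
  have heq : ∀ (g : G ⧸ M) (y : H885.Quo E M), F₁ (g • y) = F₁ y + c₁ g := by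
    intro g y
    obtain ⟨g, rfl⟩ := QuotientGroup.mk_surjective g
    obtain ⟨y, rfl⟩ := H885.mk_surjective M y
    rw [H885.quo_smul_mk]
    show L (F (g • y)) = L (F y) + c₁ (g : G ⧸ M)
    rw [hequiv, map_add, hc₁]
  have hgc₁ := hM n Y ι (hπ.pj J) hDY _ hwY (H885.Quo E M) (G ⧸ M) _ hp₁ q₁ F₁ c₁ ⟨B', hF₁⟩ heq
    hN.lat ⟨_, hreg₁⟩
  exact hCo n Y ι (hπ.pj J) hDY _ hwY (H885.Quo E M) (G ⧸ M) _ hp₁ hFM q₁ F₁ c₁ K₁ ⟨B', hF₁⟩ heq
    ⟨_, hreg₁⟩ hgc₁ hN

section
variable {n : ℕ} {X : Type} [TopologicalSpace X] [ChartedSpace (Cm n) X] {Y : Type}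
  [TopologicalSpace Y] [ChartedSpace (Cm n) Y] {E : Type} [TopologicalSpace E] {p : E → X}
  {pY : E → Y} {π : Y → X}

theorem HFn.etale (hπ : H885.Etale n π) (hπp : ∀ y, π (pY y) = p y) {g : E → ℂ}
    (hg : HFn n p g) : HFn n pY g := by
  intro y e' he'
  have he : At (H885.base π e') (p y) := by
    rw [← hπp]
    exact hπ.at_base he'
  obtain ⟨f, h1, h2⟩ := hg y _ he
  have h3 : ∀ y', e' (pY y') = H885.base π e' (p y') := fun y' => by
    rw [← hπp]
    exact hπ.apply_base he' (pY y')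
  refine ⟨f, by rw [h3]; exact h1, ?_⟩
  filter_upwards [h2] with y' h4
  rw [h4, h3]

theorem HSep.etale (hπ : H885.Etale n π) (hπp : ∀ y, π (pY y) = p y) (h : HSep n p) :
    HSep n pY := by
  intro y y' hne
  obtain ⟨g, hg, hgy⟩ := h y y' hne
  exact ⟨g, hg.etale hπ hπp, hgy⟩

end

/-- **Uniformisation.** `X` is a projective manifold of a class with Albanese data, connected generic
fibres and no normalised data; its fundamental group is amenable and the holomorphic functions of the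
universal covering `E` separate points. Then the Albanese map `F : E → ℂⁿ` is a homeomorphism without
critical points, equivariant under a subgroup of finite index. -/
theorem uniformize {D : Cls} (hst : EtSt D) (hA : AlbUD D) (hM : MFD D) (hCo : CoreD D)
    (n : ℕ) (X : Type) [TopologicalSpace X] [T2Space X] [CompactSpace X] [ConnectedSpace X]
    [ChartedSpace (Cm n) X] [IsManifold 𝓘(ℂ, Cm n) ω X] (ι : Type) [Fintype ι] (J : PJ n X ι)
    (hD : D n X) (w : Chart n X → Cm n → Matrix (Fin n) (Fin n) ℂ) (hw : IsKahler w)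
    (E Γ : Type) [TopologicalSpace E] [SimplyConnectedSpace E] [Group Γ] [MulAction Γ E]
    (p : E → X) (hp : IsGalois Γ p) (hQ : Folner Γ) (hsep : HSep n p) :
    ∃ (G : Subgroup Γ) (F : E → Cm n) (c : Γ → Cm n), G.FiniteIndex ∧ (∃ B, HolB p w F B) ∧
      (∀ g ∈ G, ∀ y, F (g • y) = F y + c g) ∧ LatChar G n (fun g : G => c g) ∧
      IsHomeomorph F ∧ ∀ y, Reg (n := n) p F y := by
  obtain ⟨G, K, N, F, c, hAl, y₀, hreg⟩ := hA n X ι J hD w hw E Γ p hp
  have hK := finK hst hM hCo n X ι J hD w hw E Γ p hp hQ G K N F c hAl y₀ hreg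
  have hlat := latChar_of_alb hAl
  obtain ⟨B, hB⟩ := hAl.hol
  obtain ⟨Y, _, _, _, _, _, _, pY, π, hπ, hπc, hpY, hπp⟩ := H885.exists_quo n X E Γ p hp G hAl.fi
  have hDY : D n Y := hst n X Y π hπ hπc hD
  have hwY : IsKahler (H885.pull π w) := hπ.isKahler hw
  have hBY : HolB pY (H885.pull π w) F B := hπ.holB hπp hB
  have hregY : Reg (n := n) pY F y₀ := (hπ.reg_iff hπp).2 hreg
  have hequiv : ∀ (g : G) (y : E), F (g • y) = F y + c g := fun g y => hAl.equiv g g.2 y
  have hgcY : GenConn (n := n) pY F := hM n Y ι (hπ.pj J) hDY _ hwY E G pY hpY N F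
    (fun g : G => c g) ⟨B, hBY⟩ hequiv hlat ⟨y₀, hregY⟩
  have hP : H494.Per (Γ := G) pY (H885.pull π w) F (fun g : G => c g) :=
    ⟨⟨B, hBY⟩, hequiv, hlat.disc⟩
  have hfin : {g : G | c g = 0}.Finite := by
    have hKG : ∀ g : G, c g = 0 → (g : Γ) ∈ K := fun g hg => (hAl.mem g).2 ⟨g.2, hg⟩
    have h1 : (K : Set Γ).Finite := Set.toFinite _
    exact (h1.preimage (Subtype.val_injective.injOn)).subset fun g hg => hKG g hg
  have hgc : ∃ t ∈ H494.RV n pY F, IsConnected (F ⁻¹' {t}) := by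
    obtain ⟨T, hT, hTi, hTS⟩ := hgcY
    obtain ⟨t, ht⟩ : ∃ t, t ∉ T := by
      by_contra hcon
      push Not at hcon
      have h1 : T = univ := eq_univ_of_forall hcon
      rw [h1, interior_univ] at hTi
      exact univ_nonempty.ne_empty hTi
    exact ⟨t, (hTS t ht).2, (hTS t ht).1⟩
  have hsY : HSep n pY := hsep.etale hπ hπp
  obtain rfl : n = N := n_eq_q hpY hP hfin ⟨y₀, hregY⟩ hgc hsY
  refine ⟨G, F, c, hAl.fi, ⟨B, hB⟩, hAl.equiv, hlat, homeo_F hpY hP hfin ⟨y₀, hregY⟩ hgc hsY,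
    fun y => (hπ.reg_iff hπp).1 (reg_all hpY hP hfin ⟨y₀, hregY⟩ hgc hsY y)⟩

end Vale.Agent.P284.H500.Iit
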