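import Vale.Agent.P284.H500.Iit.Data
import Vale.Agent.P284.H500.Iit.FinK
import Vale.Agent.P284.H213.N.Asm

/-!
# P284 (helper500), uniformisation: compact Kähler manifolds, no hypothesis on their coverings

The results of `FinKK` with data which are natural for the fundamental group.
-/

open scoped Manifold ContDiff Topology Pointwise ComplexConjugate ComplexOrder
open Filter Set Metric MeasureTheory

noncomputable section

namespace Vale.Agent.P284.H500.Iit

open Vale.Agent.P272.K Vale.Agent.P284.H248 Vale.Agent.P284.H894 Vale.Agent.P284.H894.G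
  Vale.Agent.P284.H894.V Vale.Agent.P284.H894.W Vale.Agent.P284.H894.F Vale.Agent.P284.H998
  Vale.Agent.P284.H213.Grp Vale.Agent.P284.H213.Q Vale.Agent.P284.H119.Kaz
  Vale.Agent.P284.H409.A Vale.Agent.P284.H913.Tube Vale.Agent.P284.H10 Vale.Agent.P284.H213.T3
  Vale.Agent.P284.H213.K Vale.Agent.P284.H213.G Vale.Agent.P284.H494.N Vale.Agent.P284.H213.N

/-- **The kernel of the periods is finite** (amenable group). -/
theorem finN {D : Cls} (hA : AlbUK D) (hM : MFN D) (hCo : CoreTN D)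
    {n : ℕ} {X : Type} [TopologicalSpace X] [T2Space X] [CompactSpace X] [ConnectedSpace X]
    [ChartedSpace (Cm n) X] [IsManifold 𝓘(ℂ, Cm n) ω X]
    (hDX : D n X) {w : Chart n X → Cm n → Matrix (Fin n) (Fin n) ℂ} (hw : IsKahler w)
    {E Γ : Type} [TopologicalSpace E] [SimplyConnectedSpace E] [Group Γ] [MulAction Γ E]
    {p : E → X} (hp : IsGalois Γ p) (hQ : Folner Γ) :
    ∃ (G K : Subgroup Γ) (N : ℕ) (F : E → Cm N) (c : Γ → Cm N), Alb p w G K F c ∧
      (∃ y, Reg (n := n) p F y) ∧ GenConn (n := n) p F ∧ Finite K := by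
  obtain ⟨_, _, _, hfg, -⟩ := H639.V.v15Stmt n X w hw E Γ p hp
  obtain ⟨G, K, N, F, A, c, hAl, hD, heq, hreg, hgc, hKfgG, -⟩ := prepN hA hM hDX hw hp
  refine ⟨G, K, N, F, c, hAl, hreg, hgc, ?_⟩
  have hadd := alb_add hAl
  have hKG : K ≤ G := fun g hg => ((hAl.mem g).1 hg).1
  have hKfg : Group.FG K := Group.fg_of_surjective
    (f := (Subgroup.subgroupOfEquivOfLe hKG).toMonoidHom) (Subgroup.subgroupOfEquivOfLe hKG).surjective
  set f : Γ →* Γ := MonoidHom.id Γ with hf'
  have hf : Function.Surjective f := fun g => ⟨g, rfl⟩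
  have hKf : K.map f = K := Subgroup.map_id K
  have hKffg : Group.FG (K.map f) :=
    Group.fg_of_surjective (f := f.subgroupMap K) (f.subgroupMap_surjective K)
  by_contra hKn
  have hK : Infinite (K.map f) := by
    rw [hKf]
    exact not_finite_iff_infinite.1 hKn
  have hnvi : ¬ VirtIndicable (K.map f) := fun hv => end_of_reg hw hp hAl hreg
    (grpAStmt Γ Γ f hf hfg G K hAl.fi N c hadd hAl.mem hAl.disc hAl.span hKffg hv
      (uni_of_conn hw hp hAl hgc))
  obtain ⟨M, hMn, M₂, hM₂n, q, A₂, c₂, E', _, _, _, p', F', hMe, ⟨e⟩, hp', hB', heq', hreg', hgc',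
    hN⟩ := dataN hM hDX hw hp f hD hAl.mem hAl.hol heq hreg hKffg hK hnvi
  have hKfF : Folner (K.map f) := H446.QC.folner_subgroup hQ _
  have hK₁F : Folner (K.map (QuotientGroup.mk' M)) := H465.V19.folner_of_equiv e.symm hKfF
  have hK₂F : Folner ((K.map (QuotientGroup.mk' M)).map (QuotientGroup.mk' M₂)) :=
    folner_of_surjective _ ((QuotientGroup.mk' M₂).subgroupMap_surjective _) hK₁F
  have := hN.inf
  exact hCo n X hDX w hw E' _ p' hp' q F' _ _ A₂ c₂ hB' heq' hreg' hgc' hN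
    (H573.DK.finRep_of hN.fg hK₂F hN.nvi) (H988.N.not_kazhdan_of_folner hK₂F)

/-- **Uniformisation.** `X` is a compact Kähler manifold of a class with Albanese data, connected generic
fibres and no normalised data; its fundamental group is amenable and the holomorphic functions of the
universal covering `E` separate points. Then the Albanese map `F : E → ℂⁿ` is a homeomorphism without
critical points, equivariant under a subgroup of finite index. -/
theorem uniformizeN {D : Cls} (hA : AlbUK D) (hM : MFN D) (hCo : CoreTN D)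
    (n : ℕ) (X : Type) [TopologicalSpace X] [T2Space X] [CompactSpace X] [ConnectedSpace X]
    [ChartedSpace (Cm n) X] [IsManifold 𝓘(ℂ, Cm n) ω X]
    (hD : D n X) (w : Chart n X → Cm n → Matrix (Fin n) (Fin n) ℂ) (hw : IsKahler w)
    (E Γ : Type) [TopologicalSpace E] [SimplyConnectedSpace E] [Group Γ] [MulAction Γ E]
    (p : E → X) (hp : IsGalois Γ p) (hQ : Folner Γ) (hsep : HSep n p) :
    ∃ (G : Subgroup Γ) (F : E → Cm n) (c : Γ → Cm n), G.FiniteIndex ∧ (∃ B, HolB p w F B) ∧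
      (∀ g ∈ G, ∀ y, F (g • y) = F y + c g) ∧ LatChar G n (fun g : G => c g) ∧
      IsHomeomorph F ∧ ∀ y, Reg (n := n) p F y := by
  obtain ⟨G, K, N, F, c, hAl, ⟨y₀, hreg⟩, hgc, hK⟩ := finN hA hM hCo hD hw hp hQ
  have hlat := latChar_of_alb hAl
  obtain ⟨B, hB⟩ := hAl.hol
  obtain ⟨Y, _, _, _, _, _, _, pY, π, hπ, hπc, hpY, hπp⟩ := H885.exists_quo n X E Γ p hp G hAl.fi
  have hwY : IsKahler (H885.pull π w) := hπ.isKahler hw
  have hBY : HolB pY (H885.pull π w) F B := hπ.holB hπp hB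
  have hregY : Reg (n := n) pY F y₀ := (hπ.reg_iff hπp).2 hreg
  have hequiv : ∀ (g : G) (y : E), F (g • y) = F y + c g := fun g y => hAl.equiv g g.2 y
  have hP : H494.Per (Γ := G) pY (H885.pull π w) F (fun g : G => c g) :=
    ⟨⟨B, hBY⟩, hequiv, hlat.disc⟩
  have hfin : {g : G | c g = 0}.Finite := by
    have hKG : ∀ g : G, c g = 0 → (g : Γ) ∈ K := fun g hg => (hAl.mem g).2 ⟨g.2, hg⟩
    have h1 : (K : Set Γ).Finite := Set.toFinite _
    exact (h1.preimage (Subtype.val_injective.injOn)).subset fun g hg => hKG g hg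
  have hgc' : ∃ t ∈ H494.RV n pY F, IsConnected (F ⁻¹' {t}) := by
    obtain ⟨T, hT, hTi, hTS⟩ := hgc
    obtain ⟨t, ht⟩ : ∃ t, t ∉ T := by
      by_contra hcon
      push Not at hcon
      have h1 : T = univ := eq_univ_of_forall hcon
      rw [h1, interior_univ] at hTi
      exact univ_nonempty.ne_empty hTi
    exact ⟨t, fun y hy => (hπ.reg_iff hπp).2 ((hTS t ht).2 y hy), (hTS t ht).1⟩
  have hsY : HSep n pY := hsep.etale hπ hπp
  obtain rfl : n = N := n_eq_q hpY hP hfin ⟨y₀, hregY⟩ hgc' hsY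
  refine ⟨G, F, c, hAl.fi, ⟨B, hB⟩, hAl.equiv, hlat, homeo_F hpY hP hfin ⟨y₀, hregY⟩ hgc' hsY,
    fun y => (hπ.reg_iff hπp).1 (reg_all hpY hP hfin ⟨y₀, hregY⟩ hgc' hsY y)⟩

/-- the uniformisation, for any class with its Albanese theory -/
theorem udataN_of_cls {D : Cls} (hA : AlbUK D) (hM : MFN D) (hCo : CoreTN D)
    {n : ℕ} {X : Type} [TopologicalSpace X] [T2Space X] [CompactSpace X] [ConnectedSpace X]
    [ChartedSpace (Cm n) X] [IsManifold 𝓘(ℂ, Cm n) ω X] (hD : D n X)
    {w : Chart n X → Cm n → Matrix (Fin n) (Fin n) ℂ} (hw : IsKahler w) (x : X)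
    (hF : Folner (FundamentalGroup X x)) (hsep : UCSep n X) : UData n X := by
  obtain ⟨E, Γ, tE, sE, gΓ, aΓ, p, iso, hp⟩ := Vale.Agent.P284.H977.exists_uc (n := n) X x
  have hQ : Folner Γ := Vale.Agent.P284.H465.V19.folner_of_equiv iso hF
  obtain ⟨E', _, _, p', hp', hs'⟩ := hsep
  obtain ⟨h, hh⟩ := exists_homeo n hp' hp.cov hp.surj
  have hsE : HSep n p := hs'.transfer h.symm fun y => by rw [← hh, h.apply_symm_apply]
  obtain ⟨G, F, c, hfi, ⟨B, hB⟩, heq, hlat, hhom, hreg⟩ :=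
    uniformizeN hA hM hCo n X hD w hw E Γ p hp hQ hsE
  exact ⟨E, Γ, tE, sE, gΓ, aΓ, p, _, G, F, c, B, hw, hp, hfi, hB, heq, hlat, hhom, hreg⟩

end Vale.Agent.P284.H500.Iit
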