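import Vale.Agent.P284.H500.Iit.Aff
import Vale.Agent.P272.K.QN.H705.PullLoc

/-!
# P284 (helper500), uniformisation, part 5: the flat Kähler metric

`F : E → ℂⁿ` is a local biholomorphism on a Galois covering of `X` and the deck transformations are
affine in the coordinate `F`, with an invariant positive definite matrix `H`: then `H` descends to a
Kähler metric on `X` with curvature zero.
-/

open scoped Manifold ContDiff Topology ComplexConjugate ComplexOrder
open Filter Set Metric Matrix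

noncomputable section

namespace Vale.Agent.P284.H500.Iit

open Vale.Agent.P272.K Vale.Agent.P272.K.QN Vale.Agent.P284.H894.G Vale.Agent.P284.H894.W
  Vale.Agent.P284.H494 Vale.Agent.P284.H10 Vale.Agent.P284.H224 Vale.Agent.P284.H213.Grp
open Vale.Agent.P272.K.C2 (DM DMb MD MC D2)

/-! ### local -/

section
variable {n : ℕ} {f : Cm n → Cm n} {z : Cm n} {H : Matrix (Fin n) (Fin n) ℂ}

theorem plc_eq (H : Matrix (Fin n) (Fin n) ℂ) (f : Cm n → Cm n) :
    pl (fun _ => H) f = fun y => (jm f y)ᵀ * H * ((jm f y)ᵀ)ᴴ := pl_eq _ _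

theorem mc_const (m : WithTop ℕ∞) (H : Matrix (Fin n) (Fin n) ℂ) (z : Cm n) :
    MC m (fun _ : Cm n => H) z := fun _ _ => contDiffAt_const

theorem plc_mc (hf : ContDiffAt ℂ ω f z) (m : WithTop ℕ∞) : MC m (pl (fun _ => H) f) z := by
  rw [plc_eq]
  exact (((hol_jmT hf).mc m).mul (mc_const m H z)).mul ((hol_jmT hf).mc m).conjTranspose

theorem plc_dm (hf : ContDiffAt ℂ ω f z) (i : Fin n) :
    DM i (pl (fun _ => H) f) z = DM i (fun y => (jm f y)ᵀ) z * H * ((jm f z)ᵀ)ᴴ := by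
  have h1 := DM_lawR (hol_jmT hf) (mc_const 1 H z) i
  have h2 : DM i (fun _ : Cm n => H) z = 0 := C2.DM_const H
  rw [plc_eq, h1, h2, Matrix.mul_zero, add_zero]

theorem plc_dmb (hf : ContDiffAt ℂ ω f z) (j : Fin n) :
    DMb j (pl (fun _ => H) f) z = (jm f z)ᵀ * (H * (DM j (fun y => (jm f y)ᵀ) z)ᴴ) := by
  have h1 := DMb_lawR (hol_jmT hf) (mc_const 1 H z) j
  have h2 : DMb j (fun _ : Cm n => H) z = 0 := C2.DMb_const H
  rw [plc_eq, h1, h2, Matrix.zero_mul, zero_add]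

theorem plc_d2 (hf : ContDiffAt ℂ ω f z) (i j : Fin n) :
    D2 i j (pl (fun _ => H) f) z =
      DM i (fun y => (jm f y)ᵀ) z * (H * (DM j (fun y => (jm f y)ᵀ) z)ᴴ) := by
  have h1 := D2_lawR (hol_jmT hf) (mc_const 2 H z) i j
  have h2 : DMb j (fun _ : Cm n => H) = fun _ => 0 := funext fun z => C2.DMb_const H
  have h3 : DM i (fun _ : Cm n => (0 : Matrix (Fin n) (Fin n) ℂ)) z = 0 := C2.DM_const _
  have h4 : DM i (fun _ : Cm n => H) z = 0 := C2.DM_const H
  have h5 : D2 i j (pl (fun _ => H) f) z =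
      DM i (DMb j (fun y => (jm f y)ᵀ * H * ((jm f y)ᵀ)ᴴ)) z := by rw [plc_eq]
  rw [h5, h1, h2, h3, h4]
  simp

/-- the pull-back of a constant metric by a local biholomorphism is flat -/
theorem plc_curv (hf : ContDiffAt ℂ ω f z) (hH : IsUnit H.det) (hJ : IsUnit (jm f z).det)
    (i j k l : Fin n) : curv (pl (fun _ => H) f) z i j k l = 0 := by
  rw [P1.Met.curv_eq, plc_d2 hf, plc_dm hf, plc_dmb hf]
  have h0 : pl (fun _ => H) f z = (jm f z)ᵀ * H * ((jm f z)ᵀ)ᴴ := by rw [plc_eq]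
  rw [h0]
  set A := (jm f z)ᵀ with hA
  have hA' : IsUnit A.det := by rw [hA, Matrix.det_transpose]; exact hJ
  have hAH : IsUnit (Aᴴ).det := by rw [Matrix.det_conjTranspose]; exact hA'.star
  have h1 : Aᴴ * (A * H * Aᴴ)⁻¹ * A = H⁻¹ := by
    rw [Matrix.mul_inv_rev, Matrix.mul_inv_rev]
    calc Aᴴ * (Aᴴ⁻¹ * (H⁻¹ * A⁻¹)) * A = (Aᴴ * Aᴴ⁻¹) * H⁻¹ * (A⁻¹ * A) := by
          simp only [Matrix.mul_assoc]
      _ = H⁻¹ := by
          rw [Matrix.mul_nonsing_inv _ hAH, Matrix.nonsing_inv_mul _ hA', Matrix.one_mul,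
            Matrix.mul_one]
  have h2 : ∀ P Q : Matrix (Fin n) (Fin n) ℂ,
      P * H * Aᴴ * (A * H * Aᴴ)⁻¹ * (A * (H * Q)) = P * (H * Q) := by
    intro P Q
    calc P * H * Aᴴ * (A * H * Aᴴ)⁻¹ * (A * (H * Q))
        = P * H * (Aᴴ * (A * H * Aᴴ)⁻¹ * A) * (H * Q) := by simp only [Matrix.mul_assoc]
      _ = P * (H * H⁻¹) * (H * Q) := by rw [h1]; simp only [Matrix.mul_assoc]
      _ = P * (H * Q) := by rw [Matrix.mul_nonsing_inv _ hH, Matrix.mul_one]
  rw [h2, neg_add_cancel]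
  rfl

/-- the pull-back of a constant metric is closed -/
theorem plc_closed (hf : ContDiffAt ℂ ω f z) (i j k : Fin n) :
    dz k (fun y => pl (fun _ => H) f y i j) z = dz i (fun y => pl (fun _ => H) f y k j) z := by
  have h1 : dz k (fun y => pl (fun _ => H) f y i j) z = DM k (pl (fun _ => H) f) z i j := rfl
  have h2 : dz i (fun y => pl (fun _ => H) f y k j) z = DM i (pl (fun _ => H) f) z k j := rfl
  rw [h1, h2, plc_dm hf, plc_dm hf, Matrix.mul_assoc, Matrix.mul_assoc, Matrix.mul_apply,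
    Matrix.mul_apply]
  refine Finset.sum_congr rfl fun q _ => ?_
  congr 1
  show dz k (fun y => jm f y q i) z = dz i (fun y => jm f y q k) z
  have h3 : ContDiffAt ℝ 2 (fun y => f y q) z :=
    ((contDiffAt_pi.1 hf q).restrict_scalars ℝ).of_le (by exact le_top)
  exact C2.dz_dz_comm _ _ h3

theorem plc_congr {g : Cm n → Cm n} (h : f =ᶠ[𝓝 z] g) :
    pl (fun _ => H) f =ᶠ[𝓝 z] pl (fun _ => H) g := by
  filter_upwards [eventually_eventually_nhds.2 h] with y hy
  unfold pl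
  rw [jm_congr hy]

end

/-! ### global -/

section
variable {n : ℕ} {X : Type} [TopologicalSpace X] [ChartedSpace (Cm n) X]
  {E : Type} [TopologicalSpace E]

/-- `f` is the expression of `F` near `y` in the chart `e` of `X`. -/
structure Germ (p : E → X) (F : E → Cm n) (y : E) (e : Chart n X) (f : Cm n → Cm n) : Prop where
  at_ : At e (p y)
  smooth : ContDiffAt ℂ ω f (e (p y))
  eq : ∀ᶠ y' in 𝓝 y, F y' = f (e (p y'))

open Classical in
/-- The metric on `X` which is the matrix `H` in the coordinates `F` of the covering. -/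
def fm (p : E → X) (F : E → Cm n) (H : Matrix (Fin n) (Fin n) ℂ) (e : Chart n X) (z : Cm n) :
    Matrix (Fin n) (Fin n) ℂ :=
  if h : ∃ yf : E × (Cm n → Cm n), e (p yf.1) = z ∧ Germ p F yf.1 e yf.2 then
    pl (fun _ => H) h.choose.2 z
  else 0

variable {p : E → X} {F : E → Cm n} {H : Matrix (Fin n) (Fin n) ℂ} {Γ : Type} [Group Γ]
  [MulAction Γ E] {w : Chart n X → Cm n → Matrix (Fin n) (Fin n) ℂ} {B : ℝ}

theorem exists_germ (hB : HolB p w F B) {y : E} {e : Chart n X} (he : At e (p y)) :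
    ∃ f, Germ p F y e f := by
  obtain ⟨f, h1, h2, -⟩ := hB y e he
  refine ⟨f, he, ?_, h1⟩
  obtain ⟨O, hO1, hO, hO2⟩ := _root_.eventually_nhds_iff.1 h2
  exact (Vale.Agent.P268.analyticOnNhd_of_differentiableOn hO
    (fun z hz => (hO1 z hz).differentiableWithinAt) _ hO2).contDiffAt

/-- a germ is a germ at the points near `y` -/
theorem Germ.near (hp : IsCoveringMap p) {y : E} {e : Chart n X} {f : Cm n → Cm n}
    (h : Germ p F y e f) : ∀ᶠ z in 𝓝 (e (p y)), ∃ y', e (p y') = z ∧ Germ p F y' e f := by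
  have h1 : ∀ᶠ z in 𝓝 (e (p y)), ContDiffAt ℂ ω f z := h.smooth.eventually (by simp)
  have hp1 : ContinuousAt p y := hp.continuous.continuousAt
  have h2 : ∀ᶠ y' in 𝓝 y, Germ p F y' e f := by
    have h3 : ∀ᶠ y' in 𝓝 y, ContDiffAt ℂ ω f (e (p y')) :=
      ((e.continuousAt h.at_.2).comp hp1).eventually h1
    have h4 : ∀ᶠ y' in 𝓝 y, p y' ∈ e.source := hp1.eventually (e.open_source.mem_nhds h.at_.2)
    filter_upwards [h3, h4, eventually_eventually_nhds.2 h.eq] with y' h5 h6 h7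
    exact ⟨⟨h.at_.1, h6⟩, h5, h7⟩
  obtain ⟨ε, hε, hyε, -, -⟩ := exists_ch_at hp h.at_ (O := univ) univ_mem
  have h5 : Tendsto ε.symm (𝓝 (ε y)) (𝓝 y) := IsCh.symm_tendsto hyε
  rw [← hε.eq y hyε]
  filter_upwards [h5.eventually h2, ε.open_target.mem_nhds (ε.map_source hyε)] with z h6 h7
  exact ⟨ε.symm z, by rw [← hε.eq _ (ε.map_target h7), ε.right_inv h7], h6⟩

theorem Germ.inv [IsManifold 𝓘(ℂ, Cm n) ω X] {y : E} {e : Chart n X} {f : Cm n → Cm n}
    (h : Germ p F y e f) (hreg : Reg (n := n) p F y) : IsUnit (jm f (e (p y))).det := by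
  have h1 := hreg e f h.at_ h.eq
  have h2 : jm f (e (p y)) = LinearMap.toMatrix' (fderiv ℂ f (e (p y)) : Cm n →ₗ[ℂ] Cm n) := by
    ext a b
    rw [jm_apply (h.smooth.differentiableAt (by simp)), LinearMap.toMatrix'_apply]
    congr 2
  rw [h2, LinearMap.det_toMatrix']
  have h3 : Function.Bijective (fderiv ℂ f (e (p y)) : Cm n →ₗ[ℂ] Cm n) :=
    ⟨LinearMap.injective_iff_surjective.2 h1, h1⟩
  exact LinearEquiv.isUnit_det' (LinearEquiv.ofBijective
    (fderiv ℂ f (e (p y)) : Cm n →ₗ[ℂ] Cm n) h3)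

variable [IsManifold 𝓘(ℂ, Cm n) ω X]

/-- **change of the point of the fibre and of the chart** -/
theorem Germ.change (hp : IsGalois Γ p) {M : Γ → Matrix (Fin n) (Fin n) ℂ} {b : Γ → Cm n}
    (hM : ∀ γ y, F (γ • y) = M γ *ᵥ F y + b γ)
    (hH : ∀ γ, (M γ)ᵀ * H * (M γ).map (starRingEnd ℂ) = H) {y y' : E} {e e' : Chart n X}
    {f f' : Cm n → Cm n} (h : Germ p F y e f) (h' : Germ p F y' e' f') (hyy : p y = p y') :
    pl (fun _ => H) f (e (p y)) = (jacM e e' (p y)).transpose *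
      pl (fun _ => H) f' (e' (p y)) * (jacM e e' (p y)).map (starRingEnd ℂ) := by
  obtain ⟨δ, hδ⟩ := (hp.orb y y').1 hyy
  have hpδ : ∀ y₁ : E, p (δ • y₁) = p y₁ := fun y₁ => ((hp.orb y₁ (δ • y₁)).2 ⟨δ, rfl⟩).symm
  have he' : At e' (p y) := by rw [hyy]; exact h'.at_
  have h1 : Tendsto (fun y₁ : E => δ • y₁) (𝓝 y) (𝓝 y') := by
    have := (hp.cont δ).tendsto y
    rwa [hδ] at this
  have h2 : ∀ᶠ y₁ in 𝓝 y, f' (e' (p y₁)) = M δ *ᵥ f (e (p y₁)) + b δ := by
    filter_upwards [h1.eventually h'.eq, h.eq] with y₁ h3 h4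
    rw [hpδ, hM, h4] at h3
    exact h3.symm
  obtain ⟨ε, hε, hyε, -, -⟩ := exists_ch_at hp.cov h.at_ (O := univ) univ_mem
  have h5 : Tendsto ε.symm (𝓝 (e (p y))) (𝓝 y) := by
    have := IsCh.symm_tendsto (ε := ε) hyε
    rwa [hε.eq y hyε] at this
  have h6 : (fun z => f' (e' (e.symm z))) =ᶠ[𝓝 (e (p y))] fun z => M δ *ᵥ f z + b δ := by
    have h7 : ε.target ∈ 𝓝 (e (p y)) := by
      rw [← hε.eq y hyε]
      exact ε.open_target.mem_nhds (ε.map_source hyε)
    filter_upwards [h5.eventually h2, h7] with z h8 h9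
    have h10 : e (p (ε.symm z)) = z := by rw [← hε.eq _ (ε.map_target h9), ε.right_inv h9]
    have h11 : e.symm z = p (ε.symm z) := by
      conv_lhs => rw [← h10]
      exact e.left_inv (hε.src _ (ε.map_target h9))
    rw [h10] at h8
    rw [h11, h8]
  have hx : e.symm (e (p y)) = p y := e.left_inv h.at_.2
  have hf'd : DifferentiableAt ℂ f' (e' (p y)) := by
    rw [hyy]
    exact h'.smooth.differentiableAt (by simp)
  have hfd : DifferentiableAt ℂ f (e (p y)) := h.smooth.differentiableAt (by simp)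
  have hJ1 : jm (fun z => f' (e' (e.symm z))) (e (p y)) =
      jm f' (e' (p y)) * jacM e e' (p y) := by
    have h12 : DifferentiableAt ℂ (fun z => e' (e.symm z)) (e (p y)) :=
      transition_differentiableAt h.at_ he'
    have := jm_comp (F := fun z => e' (e.symm z)) (σ := f') (z := e (p y))
      (by simp only [hx]; exact hf'd) h12
    simp only [hx] at this
    exact this
  have hJ2 : jm (fun z => M δ *ᵥ f z + b δ) (e (p y)) = M δ * jm f (e (p y)) := by
    have h13 : ∀ u : Cm n, HasFDerivAt (fun v : Cm n => M δ *ᵥ v + b δ)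
        (LinearMap.toContinuousLinearMap (Matrix.toLin' (M δ))) u := by
      intro u
      have := (LinearMap.toContinuousLinearMap (Matrix.toLin' (M δ))).hasFDerivAt (x := u)
      exact this.add_const (b δ)
    have h14 := jm_comp (F := f) (σ := fun v => M δ *ᵥ v + b δ) (z := e (p y))
      (h13 _).differentiableAt hfd
    rw [h14]
    congr 1
    ext a c
    rw [jm_apply (h13 _).differentiableAt, (h13 _).fderiv]
    simp [Matrix.toLin'_apply, Matrix.mulVec_single]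
  have hJ : jm f' (e' (p y)) * jacM e e' (p y) = M δ * jm f (e (p y)) := by
    rw [← hJ1, jm_congr h6, hJ2]
  have h15 : pl (fun _ => H) f (e (p y)) = (M δ * jm f (e (p y)))ᵀ * H *
      (M δ * jm f (e (p y))).map (starRingEnd ℂ) := by
    unfold pl
    conv_lhs => rw [← hH δ]
    rw [Matrix.transpose_mul, Matrix.map_mul]
    simp only [Matrix.mul_assoc]
  rw [h15, ← hJ]
  unfold pl
  rw [Matrix.transpose_mul, Matrix.map_mul]
  simp only [Matrix.mul_assoc]

theorem Germ.fm_eq (hp : IsGalois Γ p) {M : Γ → Matrix (Fin n) (Fin n) ℂ} {b : Γ → Cm n}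
    (hM : ∀ γ y, F (γ • y) = M γ *ᵥ F y + b γ)
    (hH : ∀ γ, (M γ)ᵀ * H * (M γ).map (starRingEnd ℂ) = H) {y : E} {e : Chart n X}
    {f : Cm n → Cm n} (h : Germ p F y e f) : fm p F H e (e (p y)) = pl (fun _ => H) f (e (p y)) := by
  have hex : ∃ yf : E × (Cm n → Cm n), e (p yf.1) = e (p y) ∧ Germ p F yf.1 e yf.2 :=
    ⟨(y, f), rfl, h⟩
  unfold fm
  rw [dif_pos hex]
  obtain ⟨h1, h2⟩ := hex.choose_spec
  have h3 : p hex.choose.1 = p y := e.injOn h2.at_.2 h.at_.2 h1
  have h4 := Germ.change hp hM hH h2 h h3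
  rw [h3, jacM_self h.at_] at h4
  rw [h4]
  simp

theorem Germ.fm_ev (hp : IsGalois Γ p) {M : Γ → Matrix (Fin n) (Fin n) ℂ} {b : Γ → Cm n}
    (hM : ∀ γ y, F (γ • y) = M γ *ᵥ F y + b γ)
    (hH : ∀ γ, (M γ)ᵀ * H * (M γ).map (starRingEnd ℂ) = H) {y : E} {e : Chart n X}
    {f : Cm n → Cm n} (h : Germ p F y e f) :
    fm p F H e =ᶠ[𝓝 (e (p y))] pl (fun _ => H) f := by
  filter_upwards [h.near hp.cov] with z hz
  obtain ⟨y', rfl, h'⟩ := hz
  exact h'.fm_eq hp hM hH

/-- **The flat Kähler metric.** -/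
theorem fm_flat (hp : IsGalois Γ p) (hB : HolB p w F B) (hreg : ∀ y, Reg (n := n) p F y)
    (hpos : H.PosDef) {M : Γ → Matrix (Fin n) (Fin n) ℂ} {b : Γ → Cm n}
    (hM : ∀ γ y, F (γ • y) = M γ *ᵥ F y + b γ)
    (hH : ∀ γ, (M γ)ᵀ * H * (M γ).map (starRingEnd ℂ) = H) :
    IsKahler (fm p F H : Chart n X → Cm n → Matrix (Fin n) (Fin n) ℂ) ∧
      ∀ (e : Chart n X) (x : X), At e x → ∀ i j k l, curv (fm p F H e) (e x) i j k l = 0 := by
  have hger : ∀ (e : Chart n X) (x : X), At e x → ∃ y f, p y = x ∧ Germ p F y e f := by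
    intro e x he
    obtain ⟨y, rfl⟩ := hp.surj x
    obtain ⟨f, hf⟩ := exists_germ hB he
    exact ⟨y, f, rfl, hf⟩
  refine ⟨⟨⟨?_, ?_, ?_⟩, ?_⟩, ?_⟩
  · intro e x he i j
    obtain ⟨y, f, rfl, h⟩ := hger e x he
    refine (plc_mc (H := H) h.smooth ∞ i j).congr_of_eventuallyEq ?_
    filter_upwards [h.fm_ev hp hM hH] with z hz
    rw [hz]
  · intro e x he
    obtain ⟨y, f, rfl, h⟩ := hger e x he
    rw [h.fm_eq hp hM hH]
    have hu : IsUnit ((jm f (e (p y))).map (starRingEnd ℂ)).det := by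
      have h1 := (h.inv (hreg y)).map (starRingEnd ℂ)
      rwa [RingHom.map_det, RingHom.mapMatrix_apply] at h1
    have hinj : Function.Injective ((jm f (e (p y))).map (starRingEnd ℂ)).mulVec :=
      Matrix.mulVec_injective_iff_isUnit.2 ((Matrix.isUnit_iff_isUnit_det _).2 hu)
    have h2 := hpos.conjTranspose_mul_mul_same hinj
    have h3 : ((jm f (e (p y))).map (starRingEnd ℂ)).conjTranspose = (jm f (e (p y))).transpose := by
      ext i j; simp [Matrix.conjTranspose_apply, Matrix.map_apply]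
    rwa [h3] at h2
  · intro e e' x he he'
    obtain ⟨y, f, rfl, h⟩ := hger e x he
    obtain ⟨f', h'⟩ := exists_germ hB he'
    rw [h.fm_eq hp hM hH, h'.fm_eq hp hM hH]
    exact Germ.change hp hM hH h h' rfl
  · intro e x he i j k
    obtain ⟨y, f, rfl, h⟩ := hger e x he
    have h1 := h.fm_ev hp hM hH
    have h2 : ∀ a b, (fun z => fm p F H e z a b) =ᶠ[𝓝 (e (p y))] fun z => pl (fun _ => H) f z a b := by
      intro a b
      filter_upwards [h1] with z hz
      rw [hz]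
    rw [dz_congr (h2 i j), dz_congr (h2 k j)]
    exact plc_closed h.smooth i j k
  · intro e x he i j k l
    obtain ⟨y, f, rfl, h⟩ := hger e x he
    have h1 := h.fm_ev hp hM hH
    have h2 : curv (fm p F H e) (e (p y)) i j k l = curv (pl (fun _ => H) f) (e (p y)) i j k l := by
      rw [P1.Met.curv_eq, P1.Met.curv_eq, h1.eq_of_nhds, C2.DM_congr h1, C2.DMb_congr h1]
      have h3 : D2 i j (fm p F H e) (e (p y)) = D2 i j (pl (fun _ => H) f) (e (p y)) :=
        C2.DM_congr (C2.DMb_eventuallyEq h1)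
      rw [h3]
    rw [h2]
    exact plc_curv h.smooth hpos.det_pos.ne'.isUnit (h.inv (hreg y)) i j k l

end

end Vale.Agent.P284.H500.Iit
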