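import Vale.Agent.P284.H500.Iit.Flat
import Vale.Agent.P284.H500.Iit.Data
import Vale.Agent.P281.H64.Z11.Defs
import Vale.Agent.P284.H885.Cov
import Vale.Agent.P284.H885.Pull

/-!
# P284 (helper500), uniformisation, part 10: a finite étale covering whose closed holomorphic 1-forms
generate the cotangent spaces
-/

open scoped Manifold ContDiff Topology ComplexConjugate ComplexOrder
open Filter Set Metric Matrix

noncomputable section

namespace Vale.Agent.P284.H500.Iit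

open Vale.Agent.P272.K Vale.Agent.P284.H894.G Vale.Agent.P284.H894.W Vale.Agent.P284.H213.Grp
open Vale.Agent.P281.H64.Z11 (Hol df Closed1 IsGen IsCover)

section
variable {n : ℕ} {X : Type} [TopologicalSpace X] [ChartedSpace (Cm n) X]
  [IsManifold 𝓘(ℂ, Cm n) ω X] {E : Type} [TopologicalSpace E] {p : E → X} {F : E → Cm n}
  {Γ : Type} [Group Γ] [MulAction Γ E] {w : Chart n X → Cm n → Matrix (Fin n) (Fin n) ℂ} {B : ℝ}
  {c : Γ → Cm n}

/-- `ψ` is `F` near `y`, as a function on `X` -/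
structure LocP (n : ℕ) [ChartedSpace (Cm n) X] (p : E → X) (F : E → Cm n) (y : E)
    (ψ : X → Cm n) : Prop where
  hol : ContMDiffAt 𝓘(ℂ, Cm n) 𝓘(ℂ, Cm n) ω ψ (p y)
  eq : ∀ᶠ y' in 𝓝 y, F y' = ψ (p y')

theorem exists_locP (hB : HolB p w F B) (y : E) : ∃ ψ, LocP n p F y ψ := by
  have he : At (chartAt (Cm n) (p y)) (p y) := ⟨chart_mem_atlas _ _, mem_chart_source _ _⟩
  obtain ⟨f, hf⟩ := exists_germ hB he
  refine ⟨fun x => f (chartAt (Cm n) (p y) x), ?_, hf.eq⟩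
  exact ContMDiffAt.comp (p y) (g := f) hf.smooth.contMDiffAt (chart_contMDiffAt he)

theorem LocP.near (hp : IsCoveringMap p) {y : E} {ψ : X → Cm n} (h : LocP n p F y ψ) :
    ∀ᶠ x in 𝓝 (p y), ∃ y', p y' = x ∧ LocP n p F y' ψ := by
  have h1 : ∀ᶠ x in 𝓝 (p y), ContMDiffAt 𝓘(ℂ, Cm n) 𝓘(ℂ, Cm n) ω ψ x := (contMDiffAt_iff_contMDiffAt_nhds (by simp : (ω : WithTop ℕ∞) ≠ ∞)).1 h.hol
  have h2 : ∀ᶠ y' in 𝓝 y, LocP n p F y' ψ := by
    filter_upwards [hp.continuous.continuousAt.eventually h1, eventually_eventually_nhds.2 h.eq]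
      with y' h3 h4 using ⟨h3, h4⟩
  have h3 : map p (𝓝 y) = 𝓝 (p y) := hp.isLocalHomeomorph.map_nhds_eq y
  rw [← h3, eventually_map]
  filter_upwards [h2] with y' hy' using ⟨y', rfl, hy'⟩

theorem LocP.unique (hp : IsGalois Γ p) (heq : ∀ g y, F (g • y) = F y + c g) {y y' : E}
    {ψ ψ' : X → Cm n} (h : LocP n p F y ψ) (h' : LocP n p F y' ψ') (hyy : p y = p y') :
    ∃ v : Cm n, ∀ᶠ x in 𝓝 (p y), ψ' x = ψ x + v := by
  obtain ⟨g, hg⟩ := (hp.orb y y').1 hyy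
  refine ⟨c g, ?_⟩
  have h1 : Tendsto (fun z : E => g • z) (𝓝 y) (𝓝 y') := by
    have := (hp.cont g).tendsto y
    rwa [hg] at this
  have h3 : map p (𝓝 y) = 𝓝 (p y) := hp.cov.isLocalHomeomorph.map_nhds_eq y
  rw [← h3, eventually_map]
  filter_upwards [h1.eventually h'.eq, h.eq] with z h4 h5
  have h6 : p (g • z) = p z := ((hp.orb z (g • z)).2 ⟨g, rfl⟩).symm
  rw [h6, heq, h5] at h4
  exact h4.symm

theorem LocP.coord {y : E} {ψ : X → Cm n} (h : LocP n p F y ψ) (j : Fin n) :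
    Hol n (fun x => ψ x j) (p y) := contMDiffAt_pi_space.1 h.hol j

/-- `F` has local representatives on `X` with injective differentials -/
def LocE (n : ℕ) [ChartedSpace (Cm n) X] (p : E → X) (F : E → Cm n) : Prop :=
  ∀ y, ∃ ψ : X → Cm n, LocP n p F y ψ ∧
    Function.Injective (mfderiv 𝓘(ℂ, Cm n) 𝓘(ℂ, Cm n) ψ (p y))

theorem locE_of (hp : IsGalois Γ p) (hB : HolB p w F B) (hreg : ∀ y, Reg (n := n) p F y) :
    LocE n p F := by
  intro y
  obtain ⟨ψ, hL⟩ := exists_locP (n := n) hB y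
  refine ⟨ψ, hL, ?_⟩
  set e : Chart n X := chartAt (Cm n) (p y) with he0
  have he : At e (p y) := ⟨chart_mem_atlas _ _, mem_chart_source _ _⟩
  have h1 : MDifferentiableAt 𝓘(ℂ, Cm n) 𝓘(ℂ, Cm n) ψ (p y) := hL.hol.mdifferentiableAt (by simp)
  have h3 : mfderiv 𝓘(ℂ, Cm n) 𝓘(ℂ, Cm n) ψ (p y) =
      fderiv ℂ (fun u => ψ (e.symm u)) (e (p y)) := by
    rw [h1.mfderiv]
    simp only [mfld_simps, fderivWithin_univ]
    rfl
  have hsur : Function.Surjective (fderiv ℂ (fun u => ψ (e.symm u)) (e (p y))) := by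
    refine hreg y e (fun u => ψ (e.symm u)) he ?_
    have h2 : ∀ᶠ y' in 𝓝 y, p y' ∈ e.source :=
      hp.cov.continuous.continuousAt.eventually (e.open_source.mem_nhds he.2)
    filter_upwards [hL.eq, h2] with y' h3 h4
    rw [h3, e.left_inv h4]
  have hinj : Function.Injective (fderiv ℂ (fun u => ψ (e.symm u)) (e (p y))) :=
    (LinearMap.injective_iff_surjective (f := (fderiv ℂ (fun u => ψ (e.symm u)) (e (p y)) :
      Cm n →ₗ[ℂ] Cm n))).2 hsur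
  rw [h3]
  exact hinj

theorem mfderiv_coord {ψ : X → Cm n} {x : X} (h : ContMDiffAt 𝓘(ℂ, Cm n) 𝓘(ℂ, Cm n) ω ψ x)
    (j : Fin n) (v : Cm n) : df n (fun x' => ψ x' j) x v =
      (mfderiv 𝓘(ℂ, Cm n) 𝓘(ℂ, Cm n) ψ x v : Cm n) j := by
  have h1 : HasMFDerivAt 𝓘(ℂ, Cm n) 𝓘(ℂ, Cm n) ψ x (mfderiv 𝓘(ℂ, Cm n) 𝓘(ℂ, Cm n) ψ x) :=
    (h.mdifferentiableAt (by simp)).hasMFDerivAt
  have h2 : HasMFDerivAt 𝓘(ℂ, Cm n) 𝓘(ℂ, ℂ) (ContinuousLinearMap.proj (R := ℂ) (φ := fun _ : Fin n => ℂ) j)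
      (ψ x) (ContinuousLinearMap.proj (R := ℂ) (φ := fun _ : Fin n => ℂ) j) :=
    ContinuousLinearMap.hasMFDerivAt _
  have h3 := (h2.comp x h1).mfderiv
  have h4 := congrArg (fun L : Cm n →L[ℂ] ℂ => L v) h3
  exact h4

/-- **The forms `dF_j` on `X`.** -/
theorem isGen_of (hp : IsGalois Γ p) (hloc : LocE n p F)
    (heq : ∀ g y, F (g • y) = F y + c g) : IsGen n X := by
  choose s hs using hp.surj
  choose ψ hψ hinj using hloc
  have key : ∀ (j : Fin n) (x : X), ∀ᶠ z in 𝓝 x, df n (fun x' => ψ (s z) x' j) z =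
      df n (fun x' => ψ (s x) x' j) z := by
    intro j x
    have h1 := (hψ (s x)).near hp.cov
    rw [hs] at h1
    filter_upwards [h1] with z hz
    obtain ⟨y', hy', hL⟩ := hz
    obtain ⟨v, hv⟩ := LocP.unique hp heq hL (hψ (s z)) (hy'.trans (hs z).symm)
    rw [hy'] at hv
    have h2 : (fun x' => ψ (s z) x' j) =ᶠ[𝓝 z] fun x' => ψ (s x) x' j + v j := by
      filter_upwards [hv] with x' hx'
      rw [hx', Pi.add_apply]
    have h3 : Hol n (fun x' => ψ (s x) x' j) z := by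
      have := hL.coord j
      rwa [hy'] at this
    show mfderiv 𝓘(ℂ, Cm n) 𝓘(ℂ, ℂ) (fun x' => ψ (s z) x' j) z =
      mfderiv 𝓘(ℂ, Cm n) 𝓘(ℂ, ℂ) (fun x' => ψ (s x) x' j) z
    rw [h2.mfderiv_eq]
    have h4 : MDifferentiableAt 𝓘(ℂ, Cm n) 𝓘(ℂ, ℂ) (fun x' => ψ (s x) x' j) z :=
      h3.mdifferentiableAt (by simp)
    have h5 : HasMFDerivAt 𝓘(ℂ, Cm n) 𝓘(ℂ, ℂ) (fun _ : X => v j) z 0 := hasMFDerivAt_const _ _
    have h6 := (h4.hasMFDerivAt.add h5).mfderiv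
    exact h6.trans (add_zero _)
  intro x v hv
  have hcl : ∀ j : Fin n, Closed1 n (fun z => df n (fun x' => ψ (s z) x' j) z) := by
    intro j x
    refine ⟨fun x' => ψ (s x) x' j, ?_, key j x⟩
    have := (hψ (s x)).coord j
    rwa [hs] at this
  by_contra hcon
  push Not at hcon
  have h0 : ∀ j : Fin n, df n (fun x' => ψ (s x) x' j) x v = 0 := fun j =>
    hcon (fun z => df n (fun x' => ψ (s z) x' j) z) (hcl j)
  have hh : ContMDiffAt 𝓘(ℂ, Cm n) 𝓘(ℂ, Cm n) ω (ψ (s x)) x := by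
    have := (hψ (s x)).hol
    rwa [hs] at this
  have hi : Function.Injective (mfderiv 𝓘(ℂ, Cm n) 𝓘(ℂ, Cm n) (ψ (s x)) x) := by
    have := hinj (s x)
    rwa [hs] at this
  have h2 : (mfderiv 𝓘(ℂ, Cm n) 𝓘(ℂ, Cm n) (ψ (s x)) x v : Cm n) = (0 : Cm n) := by
    funext j
    rw [← mfderiv_coord hh j v, h0 j]
    rfl
  refine hv (hi (h2.trans ?_))
  exact (map_zero (mfderiv 𝓘(ℂ, Cm n) 𝓘(ℂ, Cm n) (ψ (s x)) x)).symm

end

/-- **The torus which covers `X`.** -/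
theorem UData.cover {n : ℕ} {X : Type} [TopologicalSpace X] [T2Space X] [CompactSpace X]
    [ChartedSpace (Cm n) X] [IsManifold 𝓘(ℂ, Cm n) ω X] (h : UData n X) :
    ∃ (F' : Type) (_ : TopologicalSpace F') (_ : ChartedSpace (Cm n) F') (π : F' → X),
      IsCover n π ∧ IsGen n F' := by
  obtain ⟨E, Γ, _, _, _, _, p, w, G, F, c, B, -, hp, hfi, hB, heq, hlat, hhom, hreg⟩ := h
  obtain ⟨Y, _, _, _, _, _, _, q, π, hπ, hπc, hq, hqp⟩ := H885.exists_quo n X E Γ p hp G hfi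
  have hloc := locE_of hp hB hreg
  refine ⟨Y, inferInstance, inferInstance, π, ⟨inferInstance, ⟨inferInstance, inferInstance,
    inferInstance, hπ.contMDiff, fun t => (hπ.mfderiv_bijective t).1, fun _ => rfl⟩⟩, ?_⟩
  refine isGen_of (Γ := G) (c := fun g : G => c g) (F := F) hq ?_ fun g y => heq g g.2 y
  intro y
  obtain ⟨ψ, hψ, hinj⟩ := hloc y
  refine ⟨ψ ∘ π, ⟨?_, ?_⟩, ?_⟩
  · exact ContMDiffAt.comp (q y) (g := ψ) (by rw [hqp]; exact hψ.hol) (hπ.contMDiff _)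
  · filter_upwards [hψ.eq] with y' hy'
    rw [Function.comp_apply, hqp]
    exact hy'
  · have h1 : MDifferentiableAt 𝓘(ℂ, Cm n) 𝓘(ℂ, Cm n) ψ (π (q y)) := by
      rw [hqp]
      exact hψ.hol.mdifferentiableAt (by simp)
    have h2 : MDifferentiableAt 𝓘(ℂ, Cm n) 𝓘(ℂ, Cm n) π (q y) :=
      (hπ.contMDiff (q y)).mdifferentiableAt (by simp)
    rw [mfderiv_comp (q y) h1 h2]
    have h3 : Function.Injective (mfderiv 𝓘(ℂ, Cm n) 𝓘(ℂ, Cm n) ψ (π (q y))) := by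
      rw [hqp]
      exact hinj
    exact h3.comp (hπ.mfderiv_bijective (q y)).1

end Vale.Agent.P284.H500.Iit
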