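import Vale.Agent.P284.H500.Iit.Def0
import Vale.Agent.P284.H224.Top
import Vale.Agent.P284.H335.Rem
import Vale.Agent.P284.H494.Loc
import Mathlib.Analysis.Complex.AbsMax

/-!
# P284 (helper500), uniformisation: compact fibres of an equivariant map on a holomorphically separable
covering

`HFn n p g`: the function `g` on the covering space `E` of `X` is holomorphic. On a compact connected
fibre of regular points of `F : E → ℂ^q` every holomorphic function is constant.
-/

open scoped Manifold ContDiff Topology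
open Filter Set Metric

noncomputable section

namespace Vale.Agent.P284.H500.Iit

open Vale.Agent.P272.K Vale.Agent.P284.H894.G Vale.Agent.P284.H894.W Vale.Agent.P284.H494
  Vale.Agent.P284.H10 Vale.Agent.P284.H224

variable {n : ℕ} {X : Type} [TopologicalSpace X] [ChartedSpace (Cm n) X] {E : Type}
  [TopologicalSpace E] {p : E → X} {Γ : Type} [Group Γ] [MulAction Γ E]
  {w : Chart n X → Cm n → Matrix (Fin n) (Fin n) ℂ} {q : ℕ} {F : E → Cm q} {c : Γ → Cm q}
  {B : ℝ}

theorem HFn.analytic {e : Chart n X} {ε : OpenPartialHomeomorph E (Cm n)} (h : IsCh p e ε)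
    {g : E → ℂ} (hg : HFn n p g) {y : E} (hy : y ∈ ε.source) :
    AnalyticAt ℂ (g ∘ ε.symm) (ε y) := by
  obtain ⟨f, h1, h2⟩ := hg y e (h.at hy)
  rw [← h.eq y hy] at h1
  refine h1.congr ?_
  have h3 : Tendsto ε.symm (𝓝 (ε y)) (𝓝 y) := IsCh.symm_tendsto hy
  filter_upwards [h3.eventually h2, ε.open_target.mem_nhds (ε.map_source hy)] with z hz hz'
  rw [Function.comp_apply, hz, ← h.eq _ (ε.map_target hz'), ε.right_inv hz']

theorem HFn.continuous (hp : IsCoveringMap p) {g : E → ℂ} (hg : HFn n p g) : Continuous g := by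
  rw [continuous_iff_continuousAt]
  intro y
  obtain ⟨e, ε, hε, hyε, -, -⟩ := exists_ch (n := n) hp y univ_mem
  have h1 := (hg.analytic hε hyε).continuousAt
  have h2 : ContinuousAt ((g ∘ ε.symm) ∘ ε) y := h1.comp (ε.continuousAt hyε)
  refine h2.congr ?_
  filter_upwards [ε.open_source.mem_nhds hyε] with y' hy'
  simp [ε.left_inv hy']

/-- local maximum principle along a fibre -/
theorem loc_const [IsManifold 𝓘(ℂ, Cm n) ω X] (hp : IsCoveringMap p) (hB : HolB p w F B)
    {g : E → ℂ} (hg : HFn n p g) {x : E} (hx : Reg (n := n) p F x)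
    (hmax : ∀ᶠ x' in 𝓝 x, F x' = F x → ‖g x'‖ ≤ ‖g x‖) :
    ∀ᶠ x' in 𝓝 x, F x' = F x → g x' = g x := by
  obtain ⟨e, ε, hε, hxε, -, -⟩ := exists_ch (n := n) hp x univ_mem
  have hT : AnalyticAt ℂ (F ∘ ε.symm) (ε x) := IsCh.analytic hε hB _ (ε.map_source hxε)
  have hs := (hε.reg_iff hp hB hxε).1 hx
  obtain ⟨K, κ, Ψ, hκ, hΨ, h1, h2⟩ := straight hT hs
  have hTx : (F ∘ ε.symm) (ε x) = F x := by rw [Function.comp_apply, ε.left_inv hxε]
  rw [hTx] at hΨ h2
  have hΨx : Ψ (F x, κ (ε x)) = ε x := by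
    have := h1.self_of_nhds
    rwa [hTx] at this
  -- the function along the fibre
  set ρ : K → Cm n := fun k => Ψ (F x, k) with hρ
  have hρa : AnalyticAt ℂ ρ (κ (ε x)) := by
    have h3 : AnalyticAt ℂ (fun k : K => ((F x, k) : Cm q × K)) (κ (ε x)) :=
      analyticAt_const.prod analyticAt_id
    exact AnalyticAt.comp (g := Ψ) hΨ h3
  have hρx : ρ (κ (ε x)) = ε x := hΨx
  set G : K → ℂ := (g ∘ ε.symm) ∘ ρ with hG
  have hGa : AnalyticAt ℂ G (κ (ε x)) := by
    refine AnalyticAt.comp (g := g ∘ ε.symm) ?_ hρa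
    rw [hρx]
    exact hg.analytic hε hxε
  have hin : Tendsto (fun k : K => ((F x, k) : Cm q × K)) (𝓝 (κ (ε x))) (𝓝 (F x, κ (ε x))) :=
    (Continuous.prodMk continuous_const continuous_id).tendsto _
  have hρt : Tendsto ρ (𝓝 (κ (ε x))) (𝓝 (ε x)) := by
    have := hρa.continuousAt
    unfold ContinuousAt at this
    rwa [hρx] at this
  have hsym : Tendsto (fun k => ε.symm (ρ k)) (𝓝 (κ (ε x))) (𝓝 x) := by
    have h3 : Tendsto ε.symm (𝓝 (ε x)) (𝓝 x) := IsCh.symm_tendsto hxε
    exact h3.comp hρt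
  have hGx : G (κ (ε x)) = g x := by
    rw [hG, Function.comp_apply, Function.comp_apply, hρx, ε.left_inv hxε]
  have hloc : IsLocalMax (norm ∘ G) (κ (ε x)) := by
    filter_upwards [hsym.eventually hmax, hin.eventually h2] with k h3 h4
    rw [Function.comp_apply, Function.comp_apply, hGx]
    exact h3 h4.1
  have hconst := Complex.eventually_eq_of_isLocalMax_norm
    (hGa.eventually_analyticAt.mono fun k hk => hk.differentiableAt) hloc
  -- back to `E`
  have hε1 : Tendsto ε (𝓝 x) (𝓝 (ε x)) := ε.continuousAt hxε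
  filter_upwards [hε1.eventually h1, hε1.eventually (hκ.continuousAt.eventually hconst),
    ε.open_source.mem_nhds hxε] with x' h3 h4 h5 h6
  rw [Function.comp_apply, ε.left_inv h5, h6] at h3
  rw [hGx, hG, Function.comp_apply, Function.comp_apply, hρ] at h4
  simp only at h4
  rw [h3, ε.left_inv h5] at h4
  exact h4

/-- **Holomorphic functions are constant on compact connected regular fibres.** -/
theorem const_fibre [IsManifold 𝓘(ℂ, Cm n) ω X] (hp : IsCoveringMap p) (hB : HolB p w F B)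
    {t : Cm q} (ht : t ∈ RV n p F) (hc : IsConnected (F ⁻¹' {t})) (hcpt : IsCompact (F ⁻¹' {t}))
    {g : E → ℂ} (hg : HFn n p g) {y y' : E} (hy : F y = t) (hy' : F y' = t) : g y = g y' := by
  have hgc := hg.continuous hp
  obtain ⟨y₀, hy₀, hmax⟩ := hcpt.exists_isMaxOn hc.nonempty (f := fun y => ‖g y‖)
    (continuous_norm.comp hgc).continuousOn
  have key : ∀ z, F z = t → g z = g y₀ := by
    intro z hz
    have := hc.isPreconnected.induction₂' (fun a b => (g a = g y₀ ↔ g b = g y₀)) (fun x hx => ?_)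
      (fun a b d _ _ _ h1 h2 => h1.trans h2) hy₀ hz
    · exact this.1 rfl
    · by_cases hgx : g x = g y₀
      · have h1 := loc_const hp hB hg (ht x hx) (Filter.Eventually.of_forall fun x' hx' => by
          have h2 := hmax (show x' ∈ F ⁻¹' {t} from hx'.trans hx)
          rw [hgx]
          exact h2)
        filter_upwards [eventually_nhdsWithin_of_eventually_nhds h1, self_mem_nhdsWithin] with x' h2 h3
        have h4 : g x' = g x := h2 ((show F x' = t from h3).trans (show F x = t from hx).symm)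
        rw [h4]
        exact ⟨Iff.rfl, Iff.rfl⟩
      · have h1 : ∀ᶠ x' in 𝓝 x, g x' ≠ g y₀ := hgc.continuousAt.eventually_ne hgx
        filter_upwards [eventually_nhdsWithin_of_eventually_nhds h1] with x' h2
        exact ⟨⟨fun h => absurd h hgx, fun h => absurd h h2⟩,
          ⟨fun h => absurd h h2, fun h => absurd h hgx⟩⟩
  rw [key y hy, key y' hy']

/-- an isolated point of its fibre: the dimensions agree -/
theorem dim_eq [IsManifold 𝓘(ℂ, Cm n) ω X] (hp : IsCoveringMap p) (hB : HolB p w F B)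
    {x : E} (hx : Reg (n := n) p F x) (hiso : ∀ᶠ x' in 𝓝 x, F x' = F x → x' = x) : n = q := by
  obtain ⟨e, ε, hε, hxε, -, -⟩ := exists_ch (n := n) hp x univ_mem
  have hT : AnalyticAt ℂ (F ∘ ε.symm) (ε x) := IsCh.analytic hε hB _ (ε.map_source hxε)
  have hs := (hε.reg_iff hp hB hxε).1 hx
  obtain ⟨K, κ, Ψ, hκ, hΨ, h1, h2⟩ := straight hT hs
  have hTx : (F ∘ ε.symm) (ε x) = F x := by rw [Function.comp_apply, ε.left_inv hxε]
  have hΨ' := hΨ
  rw [hTx] at hΨ' h2
  have hΨx : Ψ (F x, κ (ε x)) = ε x := by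
    have := h1.self_of_nhds
    rwa [hTx] at this
  set ρ : K → Cm n := fun k => Ψ (F x, k) with hρ
  have hρc : Tendsto ρ (𝓝 (κ (ε x))) (𝓝 (ε x)) := by
    have h3 : Continuous (fun k : K => ((F x, k) : Cm q × K)) :=
      Continuous.prodMk continuous_const continuous_id
    have h4 : ContinuousAt ρ (κ (ε x)) := ContinuousAt.comp (g := Ψ) hΨ'.continuousAt h3.continuousAt
    unfold ContinuousAt at h4
    rwa [show ρ (κ (ε x)) = ε x from hΨx] at h4
  have hin : Tendsto (fun k : K => ((F x, k) : Cm q × K)) (𝓝 (κ (ε x))) (𝓝 (F x, κ (ε x))) :=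
    (Continuous.prodMk continuous_const continuous_id).tendsto _
  have hsym : Tendsto (fun k => ε.symm (ρ k)) (𝓝 (κ (ε x))) (𝓝 x) := by
    have h3 : Tendsto ε.symm (𝓝 (ε x)) (𝓝 x) := IsCh.symm_tendsto hxε
    exact h3.comp hρc
  have hK : ∀ᶠ k in 𝓝 (κ (ε x)), k = κ (ε x) := by
    filter_upwards [hsym.eventually hiso, hin.eventually h2,
      hρc.eventually (ε.open_target.mem_nhds (ε.map_source hxε))] with k h3 h4 h5
    have h6 : ε.symm (ρ k) = x := h3 h4.1
    have h7 : ρ k = ε x := by rw [← h6, ε.right_inv h5]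
    have h8 : κ (ρ k) = k := h4.2
    rw [← h8, h7]
  have hsub : Subsingleton K := by
    by_contra hcon
    rw [not_subsingleton_iff_nontrivial] at hcon
    have h3 : (𝓝[≠] (κ (ε x))).NeBot := Module.punctured_nhds_neBot ℂ K _
    have h4 : ∀ᶠ k in 𝓝[≠] (κ (ε x)), k = κ (ε x) := eventually_nhdsWithin_of_eventually_nhds hK
    obtain ⟨k, h5, h6⟩ := (h4.and self_mem_nhdsWithin).exists
    exact h6 h5
  -- the derivative is injective
  have hinj : Function.Injective (fderiv ℂ (F ∘ ε.symm) (ε x)) := by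
    rw [injective_iff_map_eq_zero]
    intro v hv
    have h3 : HasFDerivAt (fun z => ((F ∘ ε.symm) z, κ z))
        ((fderiv ℂ (F ∘ ε.symm) (ε x)).prod (fderiv ℂ κ (ε x))) (ε x) :=
      hT.differentiableAt.hasFDerivAt.prodMk hκ.differentiableAt.hasFDerivAt
    have h4 : HasFDerivAt (fun z => Ψ ((F ∘ ε.symm) z, κ z))
        ((fderiv ℂ Ψ ((F ∘ ε.symm) (ε x), κ (ε x))).comp
          ((fderiv ℂ (F ∘ ε.symm) (ε x)).prod (fderiv ℂ κ (ε x)))) (ε x) :=
      hΨ.differentiableAt.hasFDerivAt.comp (ε x) h3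
    have h5 : HasFDerivAt (fun z : Cm n => z) (ContinuousLinearMap.id ℂ (Cm n)) (ε x) :=
      hasFDerivAt_id _
    have h6 := (h4.congr_of_eventuallyEq (h1.mono fun z hz => hz.symm)).unique h5
    have h7 := congrArg (fun L => L v) h6
    simp only [ContinuousLinearMap.comp_apply, ContinuousLinearMap.prod_apply,
      ContinuousLinearMap.id_apply, hv] at h7
    rw [← h7, Subsingleton.elim (fderiv ℂ κ (ε x) v) 0]
    exact map_zero _
  have h3 := LinearEquiv.finrank_eq (LinearEquiv.ofBijective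
    ((fderiv ℂ (F ∘ ε.symm) (ε x) : Cm n →L[ℂ] Cm q) : Cm n →ₗ[ℂ] Cm q) ⟨hinj, hs⟩)
  simpa using h3

/-- a holomorphic local section through a regular point, in a given chart -/
theorem exists_sec [IsManifold 𝓘(ℂ, Cm n) ω X] (hp : IsCoveringMap p) (hB : HolB p w F B)
    {y : E} (hy : Reg (n := n) p F y) {e : Chart n X} (he : At e (p y)) :
    ∃ (ε : OpenPartialHomeomorph E (Cm n)) (u : Cm q → Cm n), IsCh p e ε ∧ y ∈ ε.source ∧
      AnalyticAt ℂ u (F y) ∧ u (F y) = ε y ∧
      ∀ᶠ t in 𝓝 (F y), u t ∈ ε.target ∧ F (ε.symm (u t)) = t := by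
  obtain ⟨ε, hε, hyε, -, -⟩ := exists_ch_at hp he univ_mem
  have hT : AnalyticAt ℂ (F ∘ ε.symm) (ε y) := IsCh.analytic hε hB _ (ε.map_source hyε)
  have hs := (hε.reg_iff hp hB hyε).1 hy
  obtain ⟨K, κ, Ψ, hκ, hΨ, h1, h2⟩ := straight hT hs
  have hTx : (F ∘ ε.symm) (ε y) = F y := by rw [Function.comp_apply, ε.left_inv hyε]
  rw [hTx] at hΨ h2
  have hΨx : Ψ (F y, κ (ε y)) = ε y := by
    have := h1.self_of_nhds
    rwa [hTx] at this
  have h3 : AnalyticAt ℂ (fun t : Cm q => ((t, κ (ε y)) : Cm q × K)) (F y) :=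
    analyticAt_id.prod analyticAt_const
  have h4 : AnalyticAt ℂ (fun t : Cm q => Ψ (t, κ (ε y))) (F y) :=
    AnalyticAt.comp (g := Ψ) (by exact hΨ) h3
  refine ⟨ε, fun t => Ψ (t, κ (ε y)), hε, hyε, h4, hΨx, ?_⟩
  have h5 : Tendsto (fun t : Cm q => ((t, κ (ε y)) : Cm q × K)) (𝓝 (F y)) (𝓝 (F y, κ (ε y))) :=
    (Continuous.prodMk continuous_id continuous_const).tendsto _
  have h6 : Tendsto (fun t : Cm q => Ψ (t, κ (ε y))) (𝓝 (F y)) (𝓝 (ε y)) := by
    have := h4.continuousAt
    unfold ContinuousAt at this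
    simp only at this
    rwa [hΨx] at this
  filter_upwards [h5.eventually h2, h6.eventually (ε.open_target.mem_nhds (ε.map_source hyε))]
    with t h7 h8
  exact ⟨h8, h7.1⟩

end Vale.Agent.P284.H500.Iit
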