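import Vale.Agent.P284.H500.Iit.Geo1
import Mathlib.Topology.Maps.Proper.CompactlyGenerated

/-!
# P284 (helper500), uniformisation: the equivariant map is a homeomorphism, regular everywhere

`E → X` is a Galois covering of the compact manifold `X`, `F : E → ℂ^q` is holomorphic with periods, with
finite kernel, the regular fibres are connected, and the holomorphic functions of `E` separate points.
Then `n = q`, and `F` is a homeomorphism without critical points.
-/

open scoped Manifold ContDiff Topology ENNReal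
open Filter Set Metric MeasureTheory

noncomputable section

namespace Vale.Agent.P284.H500.Iit

open Vale.Agent.P272.K Vale.Agent.P284.H894.G Vale.Agent.P284.H894.W Vale.Agent.P284.H494
  Vale.Agent.P284.H10 Vale.Agent.P284.H224

variable {n : ℕ} {X : Type} [TopologicalSpace X] [ChartedSpace (Cm n) X] {E : Type}
  [TopologicalSpace E] {p : E → X} {Γ : Type} [Group Γ] [MulAction Γ E]
  {w : Chart n X → Cm n → Matrix (Fin n) (Fin n) ℂ} {q : ℕ} {F : E → Cm q} {c : Γ → Cm q}
  {B : ℝ}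

/-- the preimages of closed balls are compact -/
theorem cpt_ball [T2Space X] [CompactSpace X] [Nonempty E] (hp : IsGalois Γ p) (hA : Per p w F c)
    (hfin : {g : Γ | c g = 0}.Finite) (r : ℝ) : IsCompact {y | ‖F y‖ ≤ r} := by
  have hT2 : T2Space E := H35.S4.t2_of_cov hp.cov
  have hFc := per_cont hp.cov hA
  obtain ⟨C, hC, hcov⟩ := per_compact hp hA r
  have h1 : IsCompact (⋃ g ∈ {g : Γ | c g = 0}, (fun y => g⁻¹ • y) '' C) :=
    hfin.isCompact_biUnion fun g _ => hC.image (hp.cont _)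
  refine h1.of_isClosed_subset (isClosed_le (continuous_norm.comp hFc) continuous_const)
    fun y hy => ?_
  obtain ⟨k, hk, hkC⟩ := hcov y hy
  refine mem_iUnion₂.2 ⟨k, (mem_ker hA).1 hk, k • y, hkC, inv_smul_smul k y⟩

theorem cpt_preimage [T2Space X] [CompactSpace X] [Nonempty E] (hp : IsGalois Γ p)
    (hA : Per p w F c) (hfin : {g : Γ | c g = 0}.Finite) {C : Set (Cm q)} (hC : IsCompact C) :
    IsCompact (F ⁻¹' C) := by
  have hFc := per_cont hp.cov hA
  obtain ⟨r, hr⟩ := hC.isBounded.subset_closedBall 0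
  refine (cpt_ball hp hA hfin r).of_isClosed_subset (hC.isClosed.preimage hFc) fun y hy => ?_
  have := hr hy
  rwa [mem_closedBall_zero_iff] at this

section
variable [T2Space X] [CompactSpace X] [ConnectedSpace X] [IsManifold 𝓘(ℂ, Cm n) ω X]
  [ConnectedSpace E]

/-- the regular fibres are points -/
theorem fibre_eq (hp : IsGalois Γ p) (hA : Per p w F c)
    (hfin : {g : Γ | c g = 0}.Finite) (hex : ∃ y, Reg (n := n) p F y)
    (hgc : ∃ t ∈ RV n p F, IsConnected (F ⁻¹' {t})) (hsep : HSep n p) {y y' : E}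
    (hy : F y ∈ RV n p F) (hy' : F y' = F y) : y' = y := by
  obtain ⟨B, hB⟩ := hA.hol
  obtain ⟨-, -, -, -, -, -, hall⟩ := rvStmt n q X w E Γ p hp F c hA hex
  by_contra hne
  obtain ⟨g, hg, hgy⟩ := hsep _ _ hne
  exact hgy (const_fibre hp.cov hB hy (hall hgc _ hy)
    (cpt_preimage hp hA hfin isCompact_singleton) hg hy' rfl)

theorem n_eq_q (hp : IsGalois Γ p) (hA : Per p w F c)
    (hfin : {g : Γ | c g = 0}.Finite) (hex : ∃ y, Reg (n := n) p F y)
    (hgc : ∃ t ∈ RV n p F, IsConnected (F ⁻¹' {t})) (hsep : HSep n p) : n = q := by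
  obtain ⟨B, hB⟩ := hA.hol
  obtain ⟨t, ht, hc⟩ := hgc
  obtain ⟨y, hy⟩ := hc.nonempty
  have hyt : F y = t := hy
  have hyR : F y ∈ RV n p F := by rw [hyt]; exact ht
  exact dim_eq hp.cov hB (hyR y rfl) (Filter.Eventually.of_forall fun x' hx' =>
    fibre_eq hp hA hfin hex ⟨t, ht, hc⟩ hsep hyR hx')

theorem surj_F (hp : IsGalois Γ p) (hA : Per p w F c)
    (hfin : {g : Γ | c g = 0}.Finite) (hex : ∃ y, Reg (n := n) p F y) :
    Function.Surjective F := by
  intro t
  obtain ⟨-, hdense, -, -, -, hne, -⟩ := rvStmt n q X w E Γ p hp F c hA hex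
  have hFc := per_cont hp.cov hA
  have h1 : IsCompact (F '' {y | ‖F y‖ ≤ ‖t‖ + 1}) := (cpt_ball hp hA hfin _).image hFc
  have h2 : t ∈ closure (F '' {y | ‖F y‖ ≤ ‖t‖ + 1}) := by
    rw [mem_closure_iff_nhds]
    intro U hU
    have h3 : U ∩ ball t 1 ∈ 𝓝 t := inter_mem hU (ball_mem_nhds _ one_pos)
    obtain ⟨s, hs, hsR⟩ := mem_closure_iff_nhds.1 (hdense t) _ h3
    obtain ⟨y, hy⟩ := hne s hsR
    have hys : F y = s := hy
    refine ⟨s, hs.1, y, ?_, hys⟩
    show ‖F y‖ ≤ ‖t‖ + 1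
    rw [hys]
    have h4 := mem_ball_iff_norm.1 hs.2
    calc ‖s‖ = ‖t + (s - t)‖ := by congr 1; abel
      _ ≤ ‖t‖ + ‖s - t‖ := norm_add_le _ _
      _ ≤ _ := by linarith
  rw [h1.isClosed.closure_eq] at h2
  obtain ⟨y, -, hy⟩ := h2
  exact ⟨y, hy⟩

/-- holomorphic extension of `G = g ∘ F⁻¹` across the critical values -/
theorem extend {k : ℕ} {F : E → Cm (k + 1)} {c : Γ → Cm (k + 1)} (hp : IsGalois Γ p)
    (hA : Per p w F c) (hex : ∃ y, Reg (n := n) p F y) {U : Set (Cm (k + 1))} (hU : IsOpen U)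
    {G : Cm (k + 1) → ℂ} (hG : ∀ t ∈ U, t ∈ RV n p F → DifferentiableAt ℂ G t)
    (hbd : ∀ t ∈ U, ∃ M : ℝ, ∀ᶠ s in 𝓝 t, ‖G s‖ ≤ M) :
    ∃ H : Cm (k + 1) → ℂ, DifferentiableOn ℂ H U ∧ ∀ t ∈ U, t ∈ RV n p F → H t = G t := by
  obtain ⟨ho, -, -, hcov, -⟩ := rvStmt n (k + 1) X w E Γ p hp F c hA hex
  have hS : Cov k (RV n p F)ᶜ := hcov (by omega)
  have h1 : U \ (RV n p F)ᶜ = U ∩ RV n p F := diff_compl' _ _
  obtain ⟨H, hH, hHe⟩ := Vale.Agent.P284.H335.removable_cov hS hU
    (by rw [h1]; exact hU.inter ho) (f := G)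
    (by
      rw [h1]
      exact fun t ht => (hG t ht.1 ht.2).differentiableWithinAt)
    (by
      intro t ht
      obtain ⟨M, hM⟩ := hbd t ht
      obtain ⟨r, hr, hb⟩ := Metric.mem_nhds_iff.1 hM
      refine ⟨r, hr, ?_⟩
      have hmeas : MeasurableSet (ball t r \ (RV n p F)ᶜ) := by
        rw [diff_compl']
        exact (isOpen_ball.inter ho).measurableSet
      have h3 : ∫⁻ z in ball t r \ (RV n p F)ᶜ, ‖G z‖ₑ ^ 2 ≤
          ∫⁻ _ in ball t r \ (RV n p F)ᶜ, ENNReal.ofReal (M ^ 2) := by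
        refine setLIntegral_mono' hmeas fun z hz => ?_
        have h4 : ‖G z‖ ≤ M := hb hz.1
        have h5 : ‖G z‖ₑ ^ 2 = ENNReal.ofReal (‖G z‖ ^ 2) := by
          rw [ENNReal.ofReal_pow (norm_nonneg _), ofReal_norm]
        rw [h5]
        exact ENNReal.ofReal_le_ofReal (pow_le_pow_left₀ (norm_nonneg _) h4 2)
      refine ne_of_lt (lt_of_le_of_lt h3 ?_)
      rw [setLIntegral_const]
      refine ENNReal.mul_lt_top ENNReal.ofReal_lt_top ?_
      exact lt_of_le_of_lt (measure_mono sdiff_subset) measure_ball_lt_top)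
  refine ⟨H, hH, fun t ht hR => hHe ?_⟩
  rw [h1]
  exact ⟨ht, hR⟩

/-- the preimage of the regular values is dense -/
theorem dense_pre (hq : 1 ≤ q) (hp : IsGalois Γ p) (hA : Per p w F c)
    (hex : ∃ y, Reg (n := n) p F y) : Dense (F ⁻¹' RV n p F) := by
  obtain ⟨B, hB⟩ := hA.hol
  obtain ⟨-, -, -, hcov, -⟩ := rvStmt n q X w E Γ p hp F c hA hex
  rw [dense_iff_inter_open]
  intro U hU hne
  obtain ⟨y, hy1, hy2⟩ := (removal hq hp.cov hB hex (hcov hq) hU).1 hne
  refine ⟨y, hy1, ?_⟩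
  by_contra h
  exact hy2 h

theorem inj_F (hp : IsGalois Γ p) (hA : Per p w F c)
    (hfin : {g : Γ | c g = 0}.Finite) (hex : ∃ y, Reg (n := n) p F y)
    (hgc : ∃ t ∈ RV n p F, IsConnected (F ⁻¹' {t})) (hsep : HSep n p) :
    Function.Injective F := by
  have hT2 : T2Space E := H35.S4.t2_of_cov hp.cov
  obtain ⟨B, hB⟩ := hA.hol
  have hFc := per_cont hp.cov hA
  rcases Nat.eq_zero_or_pos q with rfl | hq
  · intro y y' h
    exact fibre_eq hp hA hfin hex hgc hsep (fun _ _ => reg_zero _) h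
  obtain ⟨k, rfl⟩ : ∃ k, q = k + 1 := ⟨q - 1, by omega⟩
  have hsurj := surj_F hp hA hfin hex
  obtain ⟨ho, hdense, -⟩ := rvStmt n (k + 1) X w E Γ p hp F c hA hex
  set σ : Cm (k + 1) → E := Function.surjInv hsurj with hσ
  have hFσ : ∀ t, F (σ t) = t := Function.surjInv_eq hsurj
  have huniq : ∀ {y y' : E}, F y ∈ RV n p F → F y' = F y → y' = y := fun h1 h2 =>
    fibre_eq hp hA hfin hex hgc hsep h1 h2
  intro y y' hyy'
  by_contra hne
  obtain ⟨g, hg, hgy⟩ := hsep _ _ hne
  apply hgy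
  have hgc' := hg.continuous hp.cov
  obtain ⟨H, hH, hHe⟩ := extend (n := n) hp hA hex isOpen_univ (G := fun t => g (σ t)) (by
    intro t _ ht
    have hreg : Reg (n := n) p F (σ t) := ht _ (hFσ t)
    obtain ⟨ε, u, hε, hyε, hu, huy, hev⟩ := exists_sec hp.cov hB hreg
      (e := chartAt (Cm n) (p (σ t))) ⟨chart_mem_atlas _ _, mem_chart_source _ _⟩
    rw [hFσ] at hu huy hev
    have h1 : AnalyticAt ℂ ((g ∘ ε.symm) ∘ u) t := by
      refine AnalyticAt.comp ?_ hu
      rw [huy]
      exact hg.analytic hε hyε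
    refine (h1.differentiableAt).congr_of_eventuallyEq ?_
    filter_upwards [hev, ho.mem_nhds ht] with s h2 h3
    have h4 : ε.symm (u s) = σ s := huniq (by rw [hFσ]; exact h3) (by rw [hFσ]; exact h2.2)
    rw [Function.comp_apply, Function.comp_apply, h4]) (by
    intro t _
    obtain ⟨M, hM⟩ := (cpt_ball hp hA hfin (‖t‖ + 1)).exists_bound_of_continuousOn
      hgc'.continuousOn
    refine ⟨M, ?_⟩
    filter_upwards [ball_mem_nhds t one_pos] with s hs
    refine hM _ ?_
    show ‖F (σ s)‖ ≤ ‖t‖ + 1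
    rw [hFσ]
    have h4 := mem_ball_iff_norm.1 hs
    calc ‖s‖ = ‖t + (s - t)‖ := by congr 1; abel
      _ ≤ ‖t‖ + ‖s - t‖ := norm_add_le _ _
      _ ≤ _ := by linarith)
  have hHc : Continuous H := by
    rw [← continuousOn_univ]
    exact hH.continuousOn
  have key : (fun z => H (F z)) = g := by
    refine (hHc.comp hFc).ext_on (dense_pre (by omega) hp hA hex) hgc' fun z hz => ?_
    have h1 : F z ∈ RV n p F := hz
    rw [Function.comp_apply, hHe _ (mem_univ _) h1]
    have h2 : σ (F z) = z := huniq h1 (hFσ _)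
    simp only [h2]
  have h1 : H (F y) = g y := congrFun key y
  have h2 : H (F y') = g y' := congrFun key y'
  rw [← h1, ← h2, hyy']

theorem homeo_F (hp : IsGalois Γ p) (hA : Per p w F c)
    (hfin : {g : Γ | c g = 0}.Finite) (hex : ∃ y, Reg (n := n) p F y)
    (hgc : ∃ t ∈ RV n p F, IsConnected (F ⁻¹' {t})) (hsep : HSep n p) : IsHomeomorph F := by
  have hT2 : T2Space E := H35.S4.t2_of_cov hp.cov
  have hFc := per_cont hp.cov hA
  rw [isHomeomorph_iff_continuous_isClosedMap_bijective]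
  refine ⟨hFc, ?_, inj_F hp hA hfin hex hgc hsep, surj_F hp hA hfin hex⟩
  have : IsProperMap F := by
    rw [isProperMap_iff_isCompact_preimage]
    exact ⟨hFc, fun {K} hK => cpt_preimage hp hA hfin hK⟩
  exact this.isClosedMap

/-- **The equivariant map is regular everywhere.** -/
theorem reg_all (hp : IsGalois Γ p) (hA : Per p w F c)
    (hfin : {g : Γ | c g = 0}.Finite) (hex : ∃ y, Reg (n := n) p F y)
    (hgc : ∃ t ∈ RV n p F, IsConnected (F ⁻¹' {t})) (hsep : HSep n p) (y : E) :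
    Reg (n := n) p F y := by
  rcases Nat.eq_zero_or_pos q with rfl | hq
  · exact reg_zero y
  obtain ⟨k, rfl⟩ : ∃ k, q = k + 1 := ⟨q - 1, by omega⟩
  have hT2 : T2Space E := H35.S4.t2_of_cov hp.cov
  obtain ⟨B, hB⟩ := hA.hol
  have hFc := per_cont hp.cov hA
  have hh := homeo_F hp hA hfin hex hgc hsep
  obtain ⟨ho, hdense, -⟩ := rvStmt n (k + 1) X w E Γ p hp F c hA hex
  set Θ : E ≃ₜ Cm (k + 1) := hh.homeomorph with hΘ
  let σ : Cm (k + 1) → E := fun t => Θ.symm t
  have hσc : Continuous σ := Θ.symm.continuous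
  have hFσ : ∀ t, F (σ t) = t := fun t => Θ.apply_symm_apply t
  have hσF : ∀ z, σ (F z) = z := fun z => Θ.symm_apply_apply z
  obtain ⟨e, ε, hε, hyε, -, -⟩ := exists_ch (n := n) hp.cov y univ_mem
  -- a ball on which `σ` has values in the chart
  obtain ⟨r, hr, hb⟩ := Metric.isOpen_iff.1 (ε.open_source.preimage hσc) (F y)
    (show σ (F y) ∈ ε.source by rw [hσF]; exact hyε)
  set u : Cm (k + 1) → Cm n := fun t => ε (σ t) with hu
  have huc : ContinuousOn u (ball (F y) r) :=
    ε.continuousOn.comp hσc.continuousOn fun t ht => hb ht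
  have hud : DifferentiableOn ℂ u (ball (F y) r) := by
    rw [differentiableOn_pi]
    intro i
    obtain ⟨H, hH, hHe⟩ := extend (n := n) hp hA hex (U := ball (F y) r) isOpen_ball
      (G := fun t => u t i) (by
      intro t htb ht
      have hreg : Reg (n := n) p F (σ t) := ht _ (hFσ t)
      obtain ⟨ε', u', hε', hyε', hu', huy', hev⟩ := exists_sec hp.cov hB hreg
        (e := e) (hε.at (hb htb))
      rw [hFσ] at hu' huy' hev
      have h1 : DifferentiableAt ℂ (fun s => u' s i) t :=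
        (differentiableAt_pi.1 hu'.differentiableAt) i
      refine h1.congr_of_eventuallyEq ?_
      filter_upwards [hev, isOpen_ball.mem_nhds htb] with s h2 h3
      have h4 : ε'.symm (u' s) = σ s := by
        rw [← hσF (ε'.symm (u' s)), h2.2]
      have h5 : σ s ∈ ε'.source := by rw [← h4]; exact ε'.map_target h2.1
      show ε (σ s) i = u' s i
      rw [hε.eq _ (hb h3), ← hε'.eq _ h5, ← h4, ε'.right_inv h2.1]) (by
      intro t ht
      have h1 : ContinuousAt (fun t => u t i) t := by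
        have := (huc.continuousAt (isOpen_ball.mem_nhds ht))
        exact (continuous_apply i).continuousAt.comp this
      refine ⟨‖u t i‖ + 1, ?_⟩
      have h2 := h1.norm.eventually_lt (continuousAt_const (y := ‖u t i‖ + 1)) (by simp)
      exact h2.mono fun s hs => hs.le)
    have hEq : EqOn (fun t => u t i) H (ball (F y) r) := by
      intro t ht
      have h1 : t ∈ closure (ball (F y) r ∩ RV n p F) :=
        isOpen_ball.inter_closure (t := RV n p F) ⟨ht, hdense t⟩
      have h2 : ContinuousWithinAt (fun t => u t i) (ball (F y) r ∩ RV n p F) t :=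
        ((continuous_apply i).comp_continuousOn huc t ht).mono inter_subset_left
      have h3 : ContinuousWithinAt H (ball (F y) r ∩ RV n p F) t :=
        (hH.continuousOn t ht).mono inter_subset_left
      have : (𝓝[ball (F y) r ∩ RV n p F] t).NeBot := mem_closure_iff_nhdsWithin_neBot.1 h1
      refine tendsto_nhds_unique (h2.congr' ?_) h3
      filter_upwards [self_mem_nhdsWithin] with s hs
      exact (hHe s hs.1 hs.2).symm
    exact hH.congr hEq
  rw [hε.reg_iff hp.cov hB hyε]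
  have hT : DifferentiableAt ℂ (F ∘ ε.symm) (ε y) :=
    (IsCh.analytic hε hB _ (ε.map_source hyε)).differentiableAt
  have huy : u (F y) = ε y := by rw [hu]; simp only; rw [hσF]
  have hud' : DifferentiableAt ℂ u (F y) :=
    (hud _ (mem_ball_self hr)).differentiableAt (ball_mem_nhds _ hr)
  have h1 : HasFDerivAt ((F ∘ ε.symm) ∘ u)
      ((fderiv ℂ (F ∘ ε.symm) (ε y)).comp (fderiv ℂ u (F y))) (F y) := by
    refine HasFDerivAt.comp (F y) ?_ hud'.hasFDerivAt
    rw [huy]
    exact hT.hasFDerivAt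
  have h2 : HasFDerivAt (fun t : Cm (k + 1) => t) (ContinuousLinearMap.id ℂ (Cm (k + 1))) (F y) :=
    hasFDerivAt_id _
  have h3 : ((F ∘ ε.symm) ∘ u) =ᶠ[𝓝 (F y)] fun t => t := by
    filter_upwards [ball_mem_nhds (F y) hr] with t ht
    rw [Function.comp_apply, Function.comp_apply, hu]
    simp only
    rw [ε.left_inv (hb ht), hFσ]
  have h4 := (h1.congr_of_eventuallyEq h3.symm).unique h2
  intro v
  refine ⟨fderiv ℂ u (F y) v, ?_⟩
  have h5 := congrArg (fun L => L v) h4
  simpa using h5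

end

end Vale.Agent.P284.H500.Iit
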