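import Vale.Agent.P284.H500.Iit.Fin
import Vale.Agent.P284.H500.Iit.Pairs
import Vale.Agent.P270.H766.GB.All

/-!
# P270 (helper500): the proof of the hand-in UniversalCover
-/

open scoped Manifold ContDiff

noncomputable section

namespace Vale.Agent.P284.H500.Iit.K270

open Vale.Agent.P272.K Vale.Agent.P285.H281.FD Vale.Agent.P285.H766.PB Vale.Agent.P284.H248
  Vale.Agent.P284.H894.G Vale.Agent.P284.H894.F Vale.Agent.P284.H500.Iit

theorem final (n : ℕ) (hn : 1 ≤ n) (Z : Type) [TopologicalSpace Z] [T2Space Z] [CompactSpace Z]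
    [ConnectedSpace Z] [ChartedSpace (Cm n) Z] [IsManifold 𝓘(ℂ, Cm n) ω Z]
    (wZ : Chart n Z → Cm n → Matrix (Fin n) (Fin n) ℂ) (hwZ : IsKahler wZ) (hZ : IsUnifK n Z) :
    IsTorusQuot n Z ∧
    (∀ w : Chart n Z → Cm n → Matrix (Fin n) (Fin n) ℂ, IsKahler w → ∀ D : Bd Z, IsLB n D → ∀ s, IsSec n D s → (∃ x, NZ D s x) →
      ∀ m : ℕ, 1 ≤ m → Lc n m D s → ∀ L : Bd Z, IsLB n L → Nef w L →
        Nef w (((Bd.can n Z).pow m).mul (D.mul (L.pow m))) ∧
        NumSemiample n (((Bd.can n Z).pow m).mul (D.mul (L.pow m))) ∧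
        ((∃ k : ℕ, 1 ≤ k ∧ ∃ t, IsSec n ((D.mul (L.pow m)).pow k) t ∧
            ∃ x, NZ ((D.mul (L.pow m)).pow k) t x) →
          Semiample n (((Bd.can n Z).pow m).mul (D.mul (L.pow m))))) ∧
    (∀ r : ℕ, 1 ≤ r → ∀ (X : Type) [TopologicalSpace X] [T2Space X] [CompactSpace X]
      [ConnectedSpace X] [ChartedSpace (Cm (n + r)) X] [IsManifold 𝓘(ℂ, Cm (n + r)) ω X]
      (w' : Chart (n + r) X → Cm (n + r) → Matrix (Fin (n + r)) (Fin (n + r)) ℂ), IsKahler w' →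
      ∀ L : Fin (r + 1) → Bd Z, (∀ j, IsLB n (L j)) → ∀ (π : X → Z) (H : Bd X), IsLB (n + r) H →
      ∀ t : (j : Fin (r + 1)) → H.ι → (L j).ι → X → ℂ, IsPB n r L π H t →
      ∀ (N : Bd Z), IsLB n N → ∀ (e : ℕ) (s : H.ι × N.ι → X → ℂ),
      IsSec (n + r) ((H.pow e).mul (pull π N)) s → (∃ x, NZ ((H.pow e).mul (pull π N)) s x) →
      ∀ m : ℕ, 1 ≤ m → Klt (n + r) m ((H.pow e).mul (pull π N)) s → m * (r + 1) ≤ e →
      ∀ (f : ℕ) (N' : Bd Z), IsLB n N' → Nef w' ((H.pow f).mul (pull π N')) →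
        Nef w' (((Bd.can (n + r) X).pow m).mul (((H.pow e).mul (pull π N)).mul
          (((H.pow f).mul (pull π N')).pow m))) ∧
        NumSemiample (n + r) (((Bd.can (n + r) X).pow m).mul (((H.pow e).mul (pull π N)).mul
          (((H.pow f).mul (pull π N')).pow m))) ∧
        ((∃ k : ℕ, 1 ≤ k ∧ ∃ v, IsSec (n + r) ((((H.pow e).mul (pull π N)).mul
            (((H.pow f).mul (pull π N')).pow m)).pow k) v ∧
            ∃ x, NZ ((((H.pow e).mul (pull π N)).mul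
              (((H.pow f).mul (pull π N')).pow m)).pow k) v x) →
          Semiample (n + r) (((Bd.can (n + r) X).pow m).mul (((H.pow e).mul (pull π N)).mul
            (((H.pow f).mul (pull π N')).pow m))))) := by
  obtain ⟨χ, hχ, hfl, hK⟩ := flat_of_unifK hwZ hZ
  have hR := hfl.nonpos
  refine ⟨Vale.Agent.P284.H248.torus_of_flat hχ hfl, ?_, ?_⟩
  · intro w hw D hD s hs h0 m hm hlc L hL hM
    exact lc_gab hn hχ hR hK hw.toIsHermitian hD hs h0 hm hlc hL hM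
  · intro r hr X _ _ _ _ _ _ w' hw' L hL π H hH t hX N hN e s hs h0 m hm hk he f N' hN' hM
    exact Vale.Agent.P270.H766.GB.final hn hr hχ hR hw'.toIsHermitian hL hN hH hX hm he hs h0 hk hN'
      hM

end Vale.Agent.P284.H500.Iit.K270
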