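import Vale.Agent.P284.H500.Iit.FinN
import Vale.Agent.P284.H608.SA.Main
import Vale.Agent.P284.H894.AE.AsmT
import Vale.Agent.P284.H894.AE.ClT

/-!
# P284 (helper500), uniformisation of special compact Kähler manifolds

A special compact Kähler manifold with amenable fundamental group and holomorphically separable universal
covering is a finite étale quotient of a complex torus.
-/

open scoped Manifold ContDiff Topology
open Filter Set Metric

noncomputable section

namespace Vale.Agent.P284.H500.Iit

open Vale.Agent.P272.K Vale.Agent.P284.H248 Vale.Agent.P284.H894 Vale.Agent.P284.H894.G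
  Vale.Agent.P284.H894.V Vale.Agent.P284.H894.W Vale.Agent.P284.H894.F Vale.Agent.P284.H894.AE
  Vale.Agent.P284.H837.N Vale.Agent.P284.H213.N

/-- **Special manifolds** -/
theorem udata_of_special {n : ℕ} {X : Type} [TopologicalSpace X] [T2Space X] [CompactSpace X]
    [ConnectedSpace X] [ChartedSpace (Cm n) X] [IsManifold 𝓘(ℂ, Cm n) ω X]
    {w : Chart n X → Cm n → Matrix (Fin n) (Fin n) ℂ} (hw : IsKahler w) (hS : Special n X) (x : X)
    (h : Folner (FundamentalGroup X x) ∨ AECurveConnected n x ∨ AECurveSpanned n x)
    (hsep : UCSep n X) : UData n X := by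
  have hF : Folner (FundamentalGroup X x) := by
    rcases h with h | h
    · exact h
    · exact (growth_or tanConcl hw x h).folner
  exact udataN_of_cls (D := noVC) albUK_noV Vale.Agent.P284.H608.SA.mfN coreTN
    (Vale.Agent.P284.H553.K8.spKN n X w hw hS) hw x hF hsep

end Vale.Agent.P284.H500.Iit
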