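import Vale.Agent.P284.H500.Iit.Dom
import Vale.Agent.P284.H500.Iit.Sp

/-!
# P284 (helper500), uniformisation of compact Kähler manifolds

`DomSp`: a compact Kähler manifold `X` with a holomorphic map `ℂᴺ → X` of rank `dim X` at one point is
special.
-/

open scoped Manifold ContDiff Topology
open Filter Set Metric

noncomputable section

namespace Vale.Agent.P284.H500.Iit

open Vale.Agent.P272.K Vale.Agent.P284.H248 Vale.Agent.P284.H894 Vale.Agent.P284.H894.G
  Vale.Agent.P284.H894.V Vale.Agent.P284.H894.W Vale.Agent.P284.H894.F Vale.Agent.P284.H894.AE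
  Vale.Agent.P284.H478

/-- **DOM ⇒ SPECIAL**, compact Kähler manifolds -/
def DomSp : Prop :=
  ∀ (n N : ℕ) (X : Type) [TopologicalSpace X] [T2Space X] [CompactSpace X] [ConnectedSpace X]
    [ChartedSpace (Cm n) X] [IsManifold 𝓘(ℂ, Cm n) ω X]
    (w : Chart n X → Cm n → Matrix (Fin n) (Fin n) ℂ), IsKahler w →
    H174.GD.DomW N n X → Special n X

/-- the universal covering `ℂⁿ` -/
theorem UnivCn.curves {n : ℕ} {X : Type} [TopologicalSpace X] [T2Space X] [CompactSpace X]
    [ConnectedSpace X] [ChartedSpace (Cm n) X] [IsManifold 𝓘(ℂ, Cm n) ω X] (h : UnivCn n X)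
    (x : X) : AECurveConnected n x := by
  obtain ⟨P, hP, hd⟩ := h
  have hs := UnivCn.surj (n := n) hP
  refine ae_of_range (IsLocalDiffeomorph.contMDiff hd) ?_ x
  rw [hs.range_eq, compl_univ]
  intro e he
  simp

/-- dominated Kähler manifolds -/
theorem udata_of_domK (hDS : DomSp) {n : ℕ} {X : Type} [TopologicalSpace X] [T2Space X]
    [CompactSpace X] [ConnectedSpace X] [ChartedSpace (Cm n) X] [IsManifold 𝓘(ℂ, Cm n) ω X]
    {w : Chart n X → Cm n → Matrix (Fin n) (Fin n) ℂ} (hw : IsKahler w) (hD : Dominated n X) (x : X)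
    (h : Folner (FundamentalGroup X x) ∨ AECurveConnected n x ∨ AECurveSpanned n x)
    (hsep : UCSep n X) : UData n X := by
  obtain ⟨N, hN⟩ := dominated_iff.1 hD
  exact udata_of_special hw (hDS n N X w hw hN) x h hsep

/-- **Iitaka's conjecture.** -/
theorem udata_of_univK (hDS : DomSp) {n : ℕ} {X : Type} [TopologicalSpace X] [T2Space X]
    [CompactSpace X] [ConnectedSpace X] [ChartedSpace (Cm n) X] [IsManifold 𝓘(ℂ, Cm n) ω X]
    {w : Chart n X → Cm n → Matrix (Fin n) (Fin n) ℂ} (hw : IsKahler w) (h : UnivCn n X) :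
    UData n X := by
  obtain ⟨x⟩ : Nonempty X := inferInstance
  exact udata_of_domK hDS hw h.dominated x (Or.inr (Or.inl (h.curves x))) h.sep

end Vale.Agent.P284.H500.Iit
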