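import Vale.Agent.P284.H500.Iit.Defs
import Vale.Agent.P284.H500.Iit.Dom

/-!
# P284 (helper500), uniformisation, part 9: the torus
-/

open scoped Manifold ContDiff Topology
open Filter Set Metric

noncomputable section

namespace Vale.Agent.P284.H500.Iit

open Vale.Agent.P272.K Vale.Agent.P284.H894.G Vale.Agent.P284.H894.W Vale.Agent.P284.H213.Grp
  Vale.Agent.P284.H478 Vale.Agent.P284.H10

/-- the uniformisation -/
theorem udata_of_unif {n : ℕ} {X : Type} [TopologicalSpace X] [T2Space X] [CompactSpace X]
    [ConnectedSpace X] [ChartedSpace (Cm n) X] [IsManifold 𝓘(ℂ, Cm n) ω X] (hX : Embedded n X)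
    (h : IsUnif n X) : UData n X := by
  rcases h with h | ⟨h1, h2, x, h3⟩
  · exact udata_of_univ hX h
  · refine udata_of_dominated hX h2 x ?_ h1
    rcases h3 with h3 | h3 | h3
    · exact Or.inl h3
    · exact Or.inr (Or.inr (Or.inl h3))
    · exact Or.inr (Or.inr (Or.inr h3))

end Vale.Agent.P284.H500.Iit
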