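import Vale.Agent.P284.H500.Iit.DefsK
import Vale.Agent.P284.H500.Iit.Kah
import Vale.Agent.P284.H451.D.Sard

/-!
# P284 (helper500), uniformised compact Kähler manifolds
-/

open scoped Manifold ContDiff Topology
open Filter Set Metric

noncomputable section

namespace Vale.Agent.P284.H500.Iit

open Vale.Agent.P272.K Vale.Agent.P284.H248 Vale.Agent.P284.H894 Vale.Agent.P284.H894.G
  Vale.Agent.P284.H894.V Vale.Agent.P284.H894.W Vale.Agent.P284.H894.F Vale.Agent.P284.H894.AE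
  Vale.Agent.P284.H478

/-- a continuous map which is analytic in the charts is holomorphic -/
theorem contMDiff_of_charts {N n : ℕ} {X : Type} [TopologicalSpace X] [ChartedSpace (Cm n) X]
    {Φ : Cm N → X} (hc : Continuous Φ)
    (h : ∀ ζ (e : Chart n X), At e (Φ ζ) → AnalyticAt ℂ (fun ξ => e (Φ ξ)) ζ) :
    ContMDiff 𝓘(ℂ, Cm N) 𝓘(ℂ, Cm n) ω Φ := by
  intro ζ
  have hAt : At (chartAt (Cm n) (Φ ζ) : Chart n X) (Φ ζ) :=
    ⟨chart_mem_atlas _ _, mem_chart_source _ _⟩
  have h1 := (h ζ _ hAt).contDiffAt (n := ω)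
  rw [contMDiffAt_iff]
  refine ⟨hc.continuousAt, ?_⟩
  simp only [mfld_simps, Function.comp_def]
  exact h1.contDiffWithinAt

/-- a map whose image has an interior point is of maximal rank somewhere (Sard) -/
theorem DomBy.domW {n : ℕ} {X : Type} [TopologicalSpace X] [ChartedSpace (Cm n) X]
    (h : DomBy n X) : ∃ N, H174.GD.DomW N n X := by
  obtain ⟨N, Φ, hc, ha, x, hx⟩ := h
  refine ⟨N, Φ, contMDiff_of_charts hc ha, ?_⟩
  set e : Chart n X := chartAt (Cm n) x with he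
  have hAt : At e x := ⟨chart_mem_atlas _ _, mem_chart_source _ _⟩
  by_contra hcon
  have hU : IsOpen (Φ ⁻¹' e.source) := e.open_source.preimage hc
  have hT : ∀ z ∈ Φ ⁻¹' e.source, AnalyticAt ℂ (fun ξ => e (Φ ξ)) z := fun z hz =>
    ha z e ⟨hAt.1, hz⟩
  have h1 := H451.D.sard hU hT
  have h2 : e '' (interior (range Φ) ∩ e.source) ⊆ (fun ξ => e (Φ ξ)) ''
      {z ∈ Φ ⁻¹' e.source | ¬ Function.Surjective (fderiv ℂ (fun ξ => e (Φ ξ)) z)} := by
    rintro _ ⟨y, ⟨hy1, hy2⟩, rfl⟩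
    obtain ⟨z, rfl⟩ := interior_subset hy1
    exact ⟨z, ⟨hy2, fun hs => hcon ⟨z, e, ⟨hAt.1, hy2⟩, hs⟩⟩, rfl⟩
  have h3 : IsOpen (e '' (interior (range Φ) ∩ e.source)) :=
    e.isOpen_image_of_subset_source (isOpen_interior.inter e.open_source) inter_subset_right
  have h4 : (e '' (interior (range Φ) ∩ e.source)).Nonempty := ⟨e x, x, ⟨hx, hAt.2⟩, rfl⟩
  exact (h3.measure_pos MeasureTheory.volume h4).ne' (MeasureTheory.measure_mono_null h2 h1)

/-- uniformised compact Kähler manifolds -/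
theorem udata_of_unifK (hDS : DomSp) {n : ℕ} {X : Type} [TopologicalSpace X] [T2Space X]
    [CompactSpace X] [ConnectedSpace X] [ChartedSpace (Cm n) X] [IsManifold 𝓘(ℂ, Cm n) ω X]
    {w : Chart n X → Cm n → Matrix (Fin n) (Fin n) ℂ} (hw : IsKahler w) (h : IsUnifK n X) :
    UData n X := by
  rcases h with h | ⟨hsep, h, x, hx⟩
  · exact udata_of_univK hDS hw h
  · refine udata_of_special hw ?_ x hx hsep
    rcases h with h | h
    · exact h
    · obtain ⟨N, hN⟩ := h.domW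
      exact hDS n N X w hw hN

end Vale.Agent.P284.H500.Iit
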